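import Mathlib
import Crest.Prelude.Def_EditDistance

/-! Row 210 (S0323), chunk E: toolkit for the edit distance `editDist` (graph distance). -/
set_option autoImplicit false

open Crest.GeometryTopology.EditDistance

namespace Crest.Agent.ED

variable {α β : Type}

/-- one insertion costs at most one -/
theorem ed_insert (l r : List α) (a : α) : editDist (l ++ r) (l ++ a :: r) ≤ 1 := by
  have hne : l ++ r ≠ l ++ a :: r := by
    intro h
    have := congrArg List.length h
    simp at this
  have hadj : (editGraph α).Adj (l ++ r) (l ++ a :: r) := by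
    rw [editGraph, SimpleGraph.fromRel_adj]
    exact ⟨hne, Or.inl (Or.inl ⟨l, r, a, rfl, rfl⟩)⟩
  exact (SimpleGraph.dist_eq_one_iff_adj.mpr hadj).le

/-- one substitution costs at most one -/
theorem ed_subst (l r : List α) (a b : α) : editDist (l ++ a :: r) (l ++ b :: r) ≤ 1 := by
  by_cases hab : a = b
  · subst hab
    simp [editDist]
  · have hne : l ++ a :: r ≠ l ++ b :: r := by
      intro h
      have := List.append_cancel_left h
      simp at this
      exact hab this
    have hadj : (editGraph α).Adj (l ++ a :: r) (l ++ b :: r) := by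
      rw [editGraph, SimpleGraph.fromRel_adj]
      exact ⟨hne, Or.inl (Or.inr ⟨l, r, a, b, hab, rfl, rfl⟩)⟩
    exact (SimpleGraph.dist_eq_one_iff_adj.mpr hadj).le

/-- one insertion: reachable -/
theorem ed_reach_insert (l r : List α) (a : α) :
    (editGraph α).Reachable (l ++ r) (l ++ a :: r) := by
  have hne : l ++ r ≠ l ++ a :: r := by
    intro h
    have := congrArg List.length h
    simp at this
  have hadj : (editGraph α).Adj (l ++ r) (l ++ a :: r) := by
    rw [editGraph, SimpleGraph.fromRel_adj]
    exact ⟨hne, Or.inl (Or.inl ⟨l, r, a, rfl, rfl⟩)⟩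
  exact hadj.reachable

/-- every two words are joined in the edit graph -/
theorem ed_reachable (u v : List α) : (editGraph α).Reachable u v := by
  have key : ∀ w : List α, (editGraph α).Reachable [] w := by
    intro w
    induction w with
    | nil => exact SimpleGraph.Reachable.refl _
    | cons a w ih => exact ih.trans (ed_reach_insert [] w a)
  exact (key u).symm.trans (key v)

theorem ed_self (u : List α) : editDist u u = 0 := by
  simp [editDist]

theorem ed_comm (u v : List α) : editDist u v = editDist v u := by
  simp [editDist, SimpleGraph.dist_comm]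

theorem ed_connected : (editGraph α).Connected := by
  have : Nonempty (List α) := ⟨[]⟩
  exact ⟨fun u v => ed_reachable u v⟩

theorem ed_triangle (u v w : List α) : editDist u w ≤ editDist u v + editDist v w := by
  exact ed_connected.dist_triangle

theorem ed_pos {u v : List α} (h : u ≠ v) : 1 ≤ editDist u v := by
  exact (ed_reachable u v).pos_dist_of_ne h

/-- walk induction -/
theorem ed_walk_lip (f : List α → List α → ℕ) (K : ℕ) (hself : ∀ u, f u u = 0)
    (htri : ∀ u v w, f u w ≤ f u v + f v w) (hadj : ∀ u v, (editGraph α).Adj u v → f u v ≤ K)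
    (u v : List α) : f u v ≤ K * editDist u v := by
  obtain ⟨p, hp⟩ := (ed_reachable u v).exists_walk_length_eq_dist
  have key : ∀ (u v : List α) (p : (editGraph α).Walk u v), f u v ≤ K * p.length := by
    intro u v p
    induction p with
    | nil => simp [hself]
    | cons h p ih =>
      rename_i a b c
      calc f a c ≤ f a b + f b c := htri _ _ _
        _ ≤ K + K * p.length := Nat.add_le_add (hadj _ _ h) ih
        _ = K * (SimpleGraph.Walk.cons h p).length := by
            rw [SimpleGraph.Walk.length_cons]; ring
  have := key u v p
  rw [hp] at this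
  exact this

/-- adjacency cases -/
theorem ed_adj_cases {u v : List α} (h : (editGraph α).Adj u v) :
    (∃ (l r : List α) (a : α), u = l ++ r ∧ v = l ++ a :: r) ∨
    (∃ (l r : List α) (a : α), u = l ++ a :: r ∧ v = l ++ r) ∨
    (∃ (l r : List α) (a b : α), u = l ++ a :: r ∧ v = l ++ b :: r) := by
  rw [editGraph, SimpleGraph.fromRel_adj] at h
  rcases h with ⟨-, (h | h) | (h | h)⟩
  · exact Or.inl h
  · obtain ⟨l, r, a, b, -, hu, hv⟩ := h
    exact Or.inr (Or.inr ⟨l, r, a, b, hu, hv⟩)
  · obtain ⟨l, r, a, hv, hu⟩ := h
    exact Or.inr (Or.inl ⟨l, r, a, hu, hv⟩)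
  · obtain ⟨l, r, a, b, -, hv, hu⟩ := h
    exact Or.inr (Or.inr ⟨l, r, b, a, hu, hv⟩)

/-- potential lower bound: a function changing by at most one under each edit is 1-Lipschitz -/
theorem ed_lip (h : List α → ℕ)
    (hins : ∀ (l r : List α) (a : α), h (l ++ r) ≤ h (l ++ a :: r) + 1 ∧
      h (l ++ a :: r) ≤ h (l ++ r) + 1)
    (hsub : ∀ (l r : List α) (a b : α), h (l ++ a :: r) ≤ h (l ++ b :: r) + 1) (u v : List α) :
    h u ≤ h v + editDist u v := by
  have := ed_walk_lip (α := α) (fun u v => h u - h v) 1 (by intro u; simp)
    (by intro u v w; omega)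
    (by
      intro u v huv
      rcases ed_adj_cases huv with ⟨l, r, a, rfl, rfl⟩ | ⟨l, r, a, rfl, rfl⟩ | ⟨l, r, a, b, rfl, rfl⟩
      · have := (hins l r a).1
        omega
      · have := (hins l r a).2
        omega
      · have := hsub l r a b
        omega) u v
  omega

theorem ed_length (u v : List α) : u.length ≤ v.length + editDist u v := by
  apply ed_lip
  · intro l r a
    simp only [List.length_append, List.length_cons]
    omega
  · intro l r a b
    simp only [List.length_append, List.length_cons]
    omega

theorem ed_countP (p : α → Bool) (u v : List α) : u.countP p ≤ v.countP p + editDist u v := by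
  apply ed_lip (fun w => w.countP p)
  · intro l r a
    simp only [List.countP_append, List.countP_cons]
    split_ifs <;> omega
  · intro l r a b
    simp only [List.countP_append, List.countP_cons]
    split_ifs <;> omega

/-- a map between words which moves by at most `K` under one edit is `K`-Lipschitz -/
theorem ed_mapK (F : List α → List β) (K : ℕ)
    (hins : ∀ (l r : List α) (a : α), editDist (F (l ++ r)) (F (l ++ a :: r)) ≤ K)
    (hsub : ∀ (l r : List α) (a b : α), editDist (F (l ++ a :: r)) (F (l ++ b :: r)) ≤ K)
    (u v : List α) : editDist (F u) (F v) ≤ K * editDist u v := by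
  apply ed_walk_lip (fun u v => editDist (F u) (F v)) K
  · intro u; exact ed_self _
  · intro u v w; exact ed_triangle _ _ _
  · intro u v huv
    rcases ed_adj_cases huv with ⟨l, r, a, rfl, rfl⟩ | ⟨l, r, a, rfl, rfl⟩ | ⟨l, r, a, b, rfl, rfl⟩
    · exact hins l r a
    · rw [ed_comm]
      exact hins l r a
    · exact hsub l r a b

theorem ed_append_left (u v v' : List α) : editDist (u ++ v) (u ++ v') ≤ editDist v v' := by
  have := ed_mapK (fun w => u ++ w) 1 (by
    intro l r a
    rw [← List.append_assoc, ← List.append_assoc]
    exact ed_insert _ _ _) (by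
    intro l r a b
    rw [← List.append_assoc, ← List.append_assoc]
    exact ed_subst _ _ _ _) v v'
  simpa using this

theorem ed_append_right (u u' v : List α) : editDist (u ++ v) (u' ++ v) ≤ editDist u u' := by
  have := ed_mapK (fun w => w ++ v) 1 (by
    intro l r a
    rw [List.append_assoc, List.append_assoc, List.cons_append]
    exact ed_insert _ _ _) (by
    intro l r a b
    rw [List.append_assoc, List.append_assoc, List.cons_append, List.cons_append]
    exact ed_subst _ _ _ _) u u'
  simpa using this

theorem ed_append (u v u' v' : List α) :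
    editDist (u ++ v) (u' ++ v') ≤ editDist u u' + editDist v v' := by
  calc editDist (u ++ v) (u' ++ v') ≤ editDist (u ++ v) (u' ++ v) + editDist (u' ++ v) (u' ++ v') :=
        ed_triangle _ _ _
    _ ≤ editDist u u' + editDist v v' :=
        Nat.add_le_add (ed_append_right _ _ _) (ed_append_left _ _ _)

theorem ed_nil (u : List α) : editDist u [] ≤ u.length := by
  induction u with
  | nil => simp [ed_self]
  | cons a u ih =>
    calc editDist (a :: u) [] ≤ editDist (a :: u) u + editDist u [] := ed_triangle _ _ _
      _ ≤ 1 + u.length := by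
          apply Nat.add_le_add _ ih
          rw [ed_comm]
          exact ed_insert [] u a
      _ = (a :: u).length := by simp [Nat.add_comm]

theorem ed_map (h : α → β) (u v : List α) : editDist (u.map h) (v.map h) ≤ editDist u v := by
  have := ed_mapK (fun w => w.map h) 1 (by
    intro l r a
    simp only [List.map_append, List.map_cons]
    exact ed_insert _ _ _) (by
    intro l r a b
    simp only [List.map_append, List.map_cons]
    exact ed_subst _ _ _ _) u v
  simpa using this

theorem ed_flatMap (N : ℕ) (f g : ℕ → List α) :
    editDist ((List.range N).flatMap f) ((List.range N).flatMap g) ≤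
      ∑ b ∈ Finset.range N, editDist (f b) (g b) := by
  induction N with
  | zero => simp [ed_self]
  | succ N ih =>
    rw [List.range_succ, List.flatMap_append, List.flatMap_append, Finset.sum_range_succ]
    simp only [List.flatMap_cons, List.flatMap_nil, List.append_nil]
    exact (ed_append _ _ _ _).trans (Nat.add_le_add_right ih _)

/-- words of the same length -/
theorem ed_eq_length (u v : List α) (h : u.length = v.length) : editDist u v ≤ u.length := by
  induction u generalizing v with
  | nil =>
    have : v = [] := by
      apply List.eq_nil_of_length_eq_zero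
      simpa using h.symm
    subst this
    simp [ed_self]
  | cons a u ih =>
    cases v with
    | nil => simp at h
    | cons b v =>
      have h' : u.length = v.length := by simpa using h
      calc editDist (a :: u) (b :: v) = editDist ([a] ++ u) ([b] ++ v) := rfl
        _ ≤ editDist [a] [b] + editDist u v := ed_append _ _ _ _
        _ ≤ 1 + u.length := Nat.add_le_add (ed_subst [] [] a b) (ih v h')
        _ = (a :: u).length := by simp [Nat.add_comm]

/-- replacing every letter by a word: `editDist` grows at most by the factor `B` -/
theorem ed_flatMap_code (B : ℕ) (φ : α → List β) (hφ : ∀ a, (φ a).length = B) (u v : List α) :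
    editDist (u.flatMap φ) (v.flatMap φ) ≤ B * editDist u v := by
  apply ed_mapK (fun w => w.flatMap φ) B
  · intro l r a
    simp only [List.flatMap_append, List.flatMap_cons]
    calc editDist (l.flatMap φ ++ r.flatMap φ) (l.flatMap φ ++ (φ a ++ r.flatMap φ))
        ≤ editDist (r.flatMap φ) (φ a ++ r.flatMap φ) := ed_append_left _ _ _
      _ = editDist ([] ++ r.flatMap φ) (φ a ++ r.flatMap φ) := by simp
      _ ≤ editDist [] (φ a) := ed_append_right _ _ _
      _ ≤ (φ a).length := by rw [ed_comm]; exact ed_nil _
      _ = B := hφ a
  · intro l r a b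
    simp only [List.flatMap_append, List.flatMap_cons]
    calc editDist (l.flatMap φ ++ (φ a ++ r.flatMap φ)) (l.flatMap φ ++ (φ b ++ r.flatMap φ))
        ≤ editDist (φ a ++ r.flatMap φ) (φ b ++ r.flatMap φ) := ed_append_left _ _ _
      _ ≤ editDist (φ a) (φ b) := ed_append_right _ _ _
      _ ≤ (φ a).length := ed_eq_length _ _ (by rw [hφ, hφ])
      _ = B := hφ a

/-- one step of the splitting lemma -/
theorem ed_adj_split {w x y : List α} (h : (editGraph α).Adj w (x ++ y)) :
    ∃ x' y', w = x' ++ y' ∧ editDist x x' + editDist y y' ≤ 1 := by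
  rcases ed_adj_cases h with ⟨l, r, a, hw, hw'⟩ | ⟨l, r, a, hw, hw'⟩ | ⟨l, r, a, b, hw, hw'⟩
  · -- `w = l ++ r`, `x ++ y = l ++ a :: r`
    rcases List.append_eq_append_iff.mp hw' with ⟨t, hl, hy⟩ | ⟨t, hx, hr⟩
    · -- l = x ++ t, y = t ++ a :: r
      refine ⟨x, t ++ r, by rw [hw, hl, List.append_assoc], ?_⟩
      rw [ed_self, hy, ed_comm]
      have := ed_insert t r a
      omega
    · -- x = l ++ t, a :: r = t ++ y
      cases t with
      | nil =>
        simp only [List.append_nil, List.nil_append] at hx hr
        refine ⟨l, r, hw, ?_⟩
        rw [hx, ed_self, ← hr, ed_comm]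
        have := ed_insert [] r a
        simpa using this
      | cons c t =>
        simp only [List.cons_append, List.cons.injEq] at hr
        obtain ⟨rfl, hr⟩ := hr
        refine ⟨l ++ t, y, by rw [hw, hr, List.append_assoc], ?_⟩
        rw [hx, ed_self, ed_comm]
        have := ed_insert l t a
        omega
  · -- `w = l ++ a :: r`, `x ++ y = l ++ r`
    rcases List.append_eq_append_iff.mp hw' with ⟨t, hl, hy⟩ | ⟨t, hx, hr⟩
    · -- l = x ++ t, y = t ++ r
      refine ⟨x, t ++ a :: r, by rw [hw, hl, List.append_assoc], ?_⟩
      rw [ed_self, hy]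
      have := ed_insert t r a
      omega
    · -- x = l ++ t, r = t ++ y
      refine ⟨l ++ a :: t, y, by rw [hw, hr, List.append_assoc, List.cons_append], ?_⟩
      rw [ed_self, hx]
      have := ed_insert l t a
      omega
  · -- `w = l ++ a :: r`, `x ++ y = l ++ b :: r`
    rcases List.append_eq_append_iff.mp hw' with ⟨t, hl, hy⟩ | ⟨t, hx, hr⟩
    · -- l = x ++ t, y = t ++ b :: r
      refine ⟨x, t ++ a :: r, by rw [hw, hl, List.append_assoc], ?_⟩
      rw [ed_self, hy]
      have := ed_subst t r b a
      omega
    · -- x = l ++ t, b :: r = t ++ y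
      cases t with
      | nil =>
        simp only [List.append_nil, List.nil_append] at hx hr
        refine ⟨l, a :: r, hw, ?_⟩
        rw [hx, ed_self, ← hr]
        have := ed_subst [] r b a
        simpa using this
      | cons c t =>
        simp only [List.cons_append, List.cons.injEq] at hr
        obtain ⟨rfl, hr⟩ := hr
        refine ⟨l ++ a :: t, y, by rw [hw, hr, List.append_assoc, List.cons_append], ?_⟩
        rw [hx, ed_self]
        have := ed_subst l t b a
        omega

/-- splitting lemma -/
theorem ed_split (u v w : List α) : ∃ w₁ w₂, w = w₁ ++ w₂ ∧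
    editDist u w₁ + editDist v w₂ ≤ editDist (u ++ v) w := by
  obtain ⟨p, hp⟩ := (ed_reachable w (u ++ v)).exists_walk_length_eq_dist
  have key : ∀ (w x : List α) (p : (editGraph α).Walk w x) (u v : List α), x = u ++ v →
      ∃ w₁ w₂, w = w₁ ++ w₂ ∧ editDist u w₁ + editDist v w₂ ≤ p.length := by
    intro w x p
    induction p with
    | nil =>
      intro u v h
      exact ⟨u, v, h, by simp [ed_self]⟩
    | cons h p ih =>
      intro u v hx
      obtain ⟨w₁, w₂, hw, hle⟩ := ih u v hx
      rw [hw] at h
      obtain ⟨x', y', hx', hle'⟩ := ed_adj_split h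
      refine ⟨x', y', hx', ?_⟩
      rw [SimpleGraph.Walk.length_cons]
      have h1 := ed_triangle u w₁ x'
      have h2 := ed_triangle v w₂ y'
      omega
  obtain ⟨w₁, w₂, hw, hle⟩ := key w _ p u v rfl
  refine ⟨w₁, w₂, hw, ?_⟩
  rw [hp] at hle
  calc _ ≤ _ := hle
    _ = editDist (u ++ v) w := ed_comm _ _

/-- splitting lemma for many blocks -/
theorem ed_split_flatMap (N : ℕ) (hN : 0 < N) (blk : ℕ → List α) (w : List α) :
    ∃ pc : ℕ → List α, w = (List.range N).flatMap pc ∧
      ∑ b ∈ Finset.range N, editDist (blk b) (pc b) ≤ editDist ((List.range N).flatMap blk) w := by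
  induction N, hN using Nat.le_induction generalizing w with
  | base =>
    refine ⟨fun _ => w, ?_, ?_⟩
    · simp
    · simp
  | succ N hN ih =>
    rw [List.range_succ, List.flatMap_append]
    simp only [List.flatMap_cons, List.flatMap_nil, List.append_nil]
    obtain ⟨w₁, w₂, hw, hle⟩ := ed_split ((List.range N).flatMap blk) (blk N) w
    obtain ⟨pc, hpc, hle'⟩ := ih w₁
    refine ⟨fun b => if b = N then w₂ else pc b, ?_, ?_⟩
    · rw [hw, List.flatMap_append]
      congr 1
      · rw [hpc, List.flatMap, List.flatMap]
        congr 1
        apply List.map_congr_left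
        intro b hb
        have : b ≠ N := by
          have := List.mem_range.mp hb
          omega
        simp [this]
      · simp
    · rw [Finset.sum_range_succ]
      have : ∑ b ∈ Finset.range N, editDist (blk b) (if b = N then w₂ else pc b) =
          ∑ b ∈ Finset.range N, editDist (blk b) (pc b) := by
        apply Finset.sum_congr rfl
        intro b hb
        have : b ≠ N := by
          have := Finset.mem_range.mp hb
          omega
        simp [this]
      rw [this]
      simp only [if_true]
      exact (Nat.add_le_add_right hle' _).trans hle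

/-- deleting a prefix -/
theorem ed_prefix (A B : List α) : editDist (A ++ B) B ≤ A.length := by
  calc editDist (A ++ B) B = editDist (A ++ B) ([] ++ B) := by simp
    _ ≤ editDist A [] := ed_append_right _ _ _
    _ ≤ A.length := ed_nil _

/-- deleting a suffix -/
theorem ed_suffix (A B : List α) : editDist (A ++ B) A ≤ B.length := by
  calc editDist (A ++ B) A = editDist (A ++ B) (A ++ []) := by simp
    _ ≤ editDist B [] := ed_append_left _ _ _
    _ ≤ B.length := ed_nil _

theorem ed_drop_le (Y : List α) (p p' : ℕ) (h : p ≤ p') :
    editDist (Y.drop p) (Y.drop p') ≤ p' - p := by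
  have h1 : Y.drop p = (Y.drop p).take (p' - p) ++ Y.drop p' := by
    conv_lhs => rw [← List.take_append_drop (p' - p) (Y.drop p)]
    rw [List.drop_drop]
    congr 2
    omega
  rw [h1]
  refine (ed_prefix _ _).trans ?_
  rw [List.length_take]
  exact min_le_left _ _

theorem ed_take_le (X : List α) (p q q' : ℕ) (h : q ≤ q') :
    editDist ((X.take q').drop p) ((X.take q).drop p) ≤ q' - q := by
  have h1 : X.take q' = X.take q ++ (X.drop q).take (q' - q) := by
    conv_lhs => rw [← List.take_append_drop q (X.take q')]
    rw [List.take_take, min_eq_left h, List.drop_take]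
  rw [h1, List.drop_append]
  refine (ed_suffix _ _).trans ?_
  rw [List.length_drop, List.length_take]
  omega

/-- moving the end points of a window -/
theorem ed_window (X : List α) (p q p' q' : ℕ) :
    editDist ((X.take q).drop p) ((X.take q').drop p') ≤
      ((p - p') + (p' - p)) + ((q - q') + (q' - q)) := by
  have h1 : editDist ((X.take q).drop p) ((X.take q).drop p') ≤ (p - p') + (p' - p) := by
    rcases le_total p p' with h | h
    · exact (ed_drop_le _ _ _ h).trans (Nat.le_add_left _ _)
    · rw [ed_comm]
      exact (ed_drop_le _ _ _ h).trans (Nat.le_add_right _ _)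
  have h2 : editDist ((X.take q).drop p') ((X.take q').drop p') ≤ (q - q') + (q' - q) := by
    rcases le_total q q' with h | h
    · rw [ed_comm]
      exact (ed_take_le _ _ _ _ h).trans (Nat.le_add_left _ _)
    · exact (ed_take_le _ _ _ _ h).trans (Nat.le_add_right _ _)
  exact (ed_triangle _ _ _).trans (Nat.add_le_add h1 h2)

end Crest.Agent.ED
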