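import Mathlib
import Crest.Agent.ED.Edit

/-! Row 210 (S0323), chunk B: passing to the binary alphabet. -/
set_option autoImplicit false

open Crest.GeometryTopology.EditDistance

namespace Crest.Agent.ED

namespace BinAux

variable {S : Type} {r : ℕ}

/-- code words -/
def code (r : ℕ) (pay : S → List Bool) (c : S) : List Bool :=
  List.replicate (r + 1) true ++ (false :: (pay c ++ [false]))

theorem code_len {pay : S → List Bool} (hp : ∀ c, (pay c).length = r) (c : S) :
    (code r pay c).length = 2 * r + 3 := by
  simp [code, hp c]; ring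

theorem code_lt {pay : S → List Bool} (c : S) {i : ℕ} (hi : i ≤ r) :
    (code r pay c)[i]? = some true := by
  unfold code
  rw [List.getElem?_append_left (by simp; omega)]
  rw [List.getElem?_replicate]
  simp; omega

theorem code_r1 {pay : S → List Bool} (c : S) :
    (code r pay c)[r + 1]? = some false := by
  unfold code
  rw [List.getElem?_append_right (by simp)]
  simp

theorem code_last {pay : S → List Bool} (hp : ∀ c, (pay c).length = r) (c : S) :
    (code r pay c)[2 * r + 2]? = some false := by
  unfold code
  rw [List.getElem?_append_right (by simp; omega)]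
  have h1 : 2 * r + 2 - (List.replicate (r + 1) true).length = r + 1 := by simp; omega
  rw [h1, List.getElem?_cons_succ, List.getElem?_append_right (by rw [hp c])]
  simp [hp c]

theorem code_inj {pay : S → List Bool} (hinj : Function.Injective pay) :
    Function.Injective (code r pay) := by
  intro c c' h
  unfold code at h
  rw [List.append_cancel_left_eq, List.cons_eq_cons] at h
  exact hinj (List.append_cancel_right h.2)

open Classical in
/-- local decoder -/
noncomputable def fdec (r : ℕ) (pay : S → List Bool) (u : List Bool) : Option S :=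
  if h : ∃ c, code r pay c = u.take (2 * r + 3) then some h.choose else none

theorem fdec_congr {pay : S → List Bool} {u u' : List Bool}
    (h : u.take (2 * r + 3) = u'.take (2 * r + 3)) : fdec r pay u = fdec r pay u' := by
  unfold fdec
  rw [h]

theorem fdec_some {pay : S → List Bool} (hinj : Function.Injective pay) {u : List Bool} {c : S}
    (h : code r pay c = u.take (2 * r + 3)) : fdec r pay u = some c := by
  unfold fdec
  have hex : ∃ c, code r pay c = u.take (2 * r + 3) := ⟨c, h⟩
  rw [dif_pos hex]
  congr 1
  exact code_inj hinj (hex.choose_spec.trans h.symm)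

theorem fdec_none {pay : S → List Bool} {u : List Bool}
    (h : ¬ ∃ c, code r pay c = u.take (2 * r + 3)) : fdec r pay u = none := by
  unfold fdec
  rw [dif_neg h]

/-- decoder -/
noncomputable def dec (r : ℕ) (pay : S → List Bool) : List Bool → List S
  | [] => []
  | (b :: u) => (fdec r pay (b :: u)).toList ++ dec r pay u

theorem dec_drop {pay : S → List Bool} {X : List Bool} {p : ℕ} (hp : p < X.length) :
    dec r pay (X.drop p) = (fdec r pay (X.drop p)).toList ++ dec r pay (X.drop (p + 1)) := by
  rw [List.drop_eq_getElem_cons hp, dec]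

theorem fdec_none_of {pay : S → List Bool} (hp : ∀ c, (pay c).length = r) (c : S)
    (rest : List Bool) {p : ℕ} (h1 : 1 ≤ p) (h2 : p ≤ 2 * r + 2) :
    fdec r pay ((code r pay c ++ rest).drop p) = none := by
  apply fdec_none
  rintro ⟨c', hc'⟩
  have key : ∀ i, i ≤ r → (code r pay c ++ rest)[p + i]? = some true := by
    intro i hi
    have h3 := code_lt (pay := pay) c' hi
    rw [hc', List.getElem?_take_of_lt (by omega), List.getElem?_drop] at h3
    exact h3
  rcases le_or_gt p (r + 1) with h | h
  · have h3 := key (r + 1 - p) (by omega)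
    rw [show p + (r + 1 - p) = r + 1 by omega,
      List.getElem?_append_left (by rw [code_len hp]; omega), code_r1] at h3
    simp at h3
  · have h3 := key (2 * r + 2 - p) (by omega)
    rw [show p + (2 * r + 2 - p) = 2 * r + 2 by omega,
      List.getElem?_append_left (by rw [code_len hp]; omega), code_last hp] at h3
    simp at h3

theorem dec_code {pay : S → List Bool} (hp : ∀ c, (pay c).length = r)
    (hinj : Function.Injective pay) (c : S) (rest : List Bool) :
    dec r pay (code r pay c ++ rest) = c :: dec r pay rest := by
  set X := code r pay c ++ rest with hX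
  have hlen : 2 * r + 3 ≤ X.length := by
    rw [hX, List.length_append, code_len hp]; omega
  have h0 : dec r pay X = c :: dec r pay (X.drop 1) := by
    have := dec_drop (r := r) (pay := pay) (X := X) (p := 0) (by omega)
    rw [List.drop_zero, zero_add] at this
    rw [this, fdec_some hinj (c := c)]
    · simp
    · rw [hX, List.take_left' (code_len hp c)]
  have h1 : ∀ k, 1 + k ≤ 2 * r + 3 → dec r pay (X.drop 1) = dec r pay (X.drop (1 + k)) := by
    intro k
    induction k with
    | zero => intro _; rfl
    | succ k ih =>
      intro hk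
      rw [ih (by omega), dec_drop (by omega), hX, fdec_none_of hp c rest (by omega) (by omega)]
      simp [add_assoc]
  rw [h0, h1 (2 * r + 2) (by omega)]
  congr 2
  rw [hX, show 1 + (2 * r + 2) = 2 * r + 3 by ring, List.drop_left' (code_len hp c)]

theorem dec_flatMap {pay : S → List Bool} (hp : ∀ c, (pay c).length = r)
    (hinj : Function.Injective pay) (x : List S) :
    dec r pay (x.flatMap (code r pay)) = x := by
  induction x with
  | nil => rfl
  | cons c x ih => rw [List.flatMap_cons, dec_code hp hinj, ih]

theorem dec_append (r : ℕ) (pay : S → List Bool) (l z : List Bool) :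
    ∃ Q, dec r pay (l ++ z) = Q ++ dec r pay z ∧ Q.length ≤ l.length := by
  induction l with
  | nil => exact ⟨[], rfl, le_rfl⟩
  | cons b l ih =>
    obtain ⟨Q, hQ, hl⟩ := ih
    refine ⟨(fdec r pay (b :: (l ++ z))).toList ++ Q, ?_, ?_⟩
    · rw [List.cons_append, dec, hQ, List.append_assoc]
    · rw [List.length_append, List.length_cons]
      have : ((fdec r pay (b :: (l ++ z))).toList).length ≤ 1 := by
        cases fdec r pay (b :: (l ++ z)) <;> simp
      omega

theorem dec_far (r : ℕ) (pay : S → List Bool) (l1 l2 z z' : List Bool)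
    (h : 2 * r + 2 ≤ l2.length) :
    ∃ D, dec r pay (l1 ++ (l2 ++ z)) = D ++ dec r pay (l2 ++ z) ∧
      dec r pay (l1 ++ (l2 ++ z')) = D ++ dec r pay (l2 ++ z') := by
  induction l1 with
  | nil => exact ⟨[], rfl, rfl⟩
  | cons b l ih =>
    obtain ⟨D, h1, h2⟩ := ih
    have hf : fdec r pay (b :: (l ++ (l2 ++ z))) = fdec r pay (b :: (l ++ (l2 ++ z'))) := by
      apply fdec_congr
      have e1 : b :: (l ++ (l2 ++ z)) = (b :: (l ++ l2)) ++ z := by simp
      have e2 : b :: (l ++ (l2 ++ z')) = (b :: (l ++ l2)) ++ z' := by simp
      rw [e1, e2, List.take_append_of_le_length, List.take_append_of_le_length]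
      · simp; omega
      · simp; omega
    refine ⟨(fdec r pay (b :: (l ++ (l2 ++ z)))).toList ++ D, ?_, ?_⟩
    · rw [List.cons_append, dec, h1, List.append_assoc]
    · rw [List.cons_append, dec, h2, ← hf, List.append_assoc]

theorem ed_le_add (u v : List S) : editDist u v ≤ u.length + v.length := by
  have h1 := ed_triangle u [] v
  have h2 := ed_nil u
  have h3 := ed_nil v
  rw [ed_comm] at h3
  omega

theorem dec_near (r : ℕ) (pay : S → List Bool) (l z z' : List Bool)
    {E : ℕ} (hE : ∀ Q Q' : List S, Q.length ≤ 2 * r + 2 → Q'.length ≤ 2 * r + 2 →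
      editDist (Q ++ dec r pay z) (Q' ++ dec r pay z') ≤ E) :
    editDist (dec r pay (l ++ z)) (dec r pay (l ++ z')) ≤ E := by
  rcases le_or_gt l.length (2 * r + 2) with h | h
  · obtain ⟨Q, hQ, hl⟩ := dec_append r pay l z
    obtain ⟨Q', hQ', hl'⟩ := dec_append r pay l z'
    rw [hQ, hQ']
    exact hE Q Q' (hl.trans h) (hl'.trans h)
  · set l1 := l.take (l.length - (2 * r + 2)) with hl1
    set l2 := l.drop (l.length - (2 * r + 2)) with hl2
    have hl : l = l1 ++ l2 := (List.take_append_drop _ _).symm
    have hlen : l2.length = 2 * r + 2 := by rw [hl2, List.length_drop]; omega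
    obtain ⟨D, h1, h2⟩ := dec_far r pay l1 l2 z z' hlen.ge
    obtain ⟨Q, hQ, hlQ⟩ := dec_append r pay l2 z
    obtain ⟨Q', hQ', hlQ'⟩ := dec_append r pay l2 z'
    rw [hl, List.append_assoc, List.append_assoc, h1, h2, hQ, hQ']
    have h3 := ed_append D (Q ++ dec r pay z) D (Q' ++ dec r pay z')
    rw [ed_self, zero_add] at h3
    exact h3.trans (hE Q Q' (hlQ.trans hlen.le) (hlQ'.trans hlen.le))

theorem dec_ins (r : ℕ) (pay : S → List Bool) (l z : List Bool) (a : Bool) :
    editDist (dec r pay (l ++ z)) (dec r pay (l ++ a :: z)) ≤ 2 * (2 * r + 3) + 1 := by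
  apply dec_near
  intro Q Q' hQ hQ'
  rw [dec, ← List.append_assoc]
  refine (ed_append _ _ _ _).trans ?_
  rw [ed_self, add_zero]
  refine (ed_le_add _ _).trans ?_
  rw [List.length_append]
  have : ((fdec r pay (a :: z)).toList).length ≤ 1 := by
    cases fdec r pay (a :: z) <;> simp
  omega

theorem dec_sub (r : ℕ) (pay : S → List Bool) (l z : List Bool) (a b : Bool) :
    editDist (dec r pay (l ++ a :: z)) (dec r pay (l ++ b :: z)) ≤ 2 * (2 * r + 3) + 1 := by
  apply dec_near
  intro Q Q' hQ hQ'
  rw [dec, dec, ← List.append_assoc, ← List.append_assoc]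
  refine (ed_append _ _ _ _).trans ?_
  rw [ed_self, add_zero]
  refine (ed_le_add _ _).trans ?_
  rw [List.length_append, List.length_append]
  have : ((fdec r pay (a :: z)).toList).length ≤ 1 := by
    cases fdec r pay (a :: z) <;> simp
  have : ((fdec r pay (b :: z)).toList).length ≤ 1 := by
    cases fdec r pay (b :: z) <;> simp
  omega

theorem dec_adj (r : ℕ) (pay : S → List Bool) {w w' : List Bool}
    (h : (editGraph Bool).Adj w w') :
    editDist (dec r pay w) (dec r pay w') ≤ 2 * (2 * r + 3) + 1 := by
  unfold editGraph at h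
  rw [SimpleGraph.fromRel_adj] at h
  obtain ⟨-, (⟨l, z, a, rfl, rfl⟩ | ⟨l, z, a, b, -, rfl, rfl⟩) |
    (⟨l, z, a, rfl, rfl⟩ | ⟨l, z, a, b, -, rfl, rfl⟩)⟩ := h
  · exact dec_ins r pay l z a
  · exact dec_sub r pay l z a b
  · rw [ed_comm]; exact dec_ins r pay l z a
  · exact dec_sub r pay l z b a

theorem dec_walk (r : ℕ) (pay : S → List Bool) {w w' : List Bool}
    (p : (editGraph Bool).Walk w w') :
    editDist (dec r pay w) (dec r pay w') ≤ (2 * (2 * r + 3) + 1) * p.length := by
  induction p with
  | nil => rw [ed_self]; exact Nat.zero_le _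
  | @cons u v w h p ih =>
    rw [SimpleGraph.Walk.length_cons, mul_add, mul_one]
    refine (ed_triangle _ (dec r pay v) _).trans ?_
    have := dec_adj r pay h
    omega

end BinAux

open BinAux in
/-- Proof. Let `pay : S → List Bool` be injective with words of length `r`,
`code c = replicate (r+1) true ++ [false] ++ pay c ++ [false]`, length `B = 2 r + 3`, and
`φ x = x.flatMap code`. Decoder: for every suffix of `w` output `c` if `code c` is a prefix of it
(`dec w = w.tails.filterMap ..`). `dec (φ x) = x`: an occurrence of a code word in `code c ++ rest` at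
offset `p`, `1 ≤ p ≤ 2 r + 2`, would start with `r + 1` letters `true`, but
position `r + 1` or position `2 r + 2` (both `false`) is among them. One edit of `w` changes
only the outputs at the at most `B` suffixes starting less than `B` before it, so
`editDist (dec w) (dec w') ≤ 2 B + 1` for adjacent `w, w'`; hence
`editDist x y ≤ (2B+1) editDist (φ x) (φ y)`. -/
theorem bin_transfer {S : Type} [Finite S] {r : ℕ} (hr : Nat.card S ≤ 2 ^ r) :
    ∃ φ : List S → List Bool, (∀ x, (φ x).length = (2 * r + 3) * x.length) ∧
      (∀ x y, editDist (φ x) (φ y) ≤ (2 * r + 3) * editDist x y) ∧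
      (∀ x y, editDist x y ≤ (2 * (2 * r + 3) + 1) * editDist (φ x) (φ y)) := by
  classical
  obtain ⟨pay, hp, hinj⟩ : ∃ pay : S → List Bool, (∀ c, (pay c).length = r) ∧
      Function.Injective pay := by
    have : Fintype S := Fintype.ofFinite S
    have h1 : Fintype.card S ≤ Fintype.card (Fin r → Bool) := by
      rw [← Nat.card_eq_fintype_card]
      simpa using hr
    obtain ⟨e⟩ := Function.Embedding.nonempty_of_card_le h1
    refine ⟨fun c => List.ofFn (e c), fun c => by simp, ?_⟩
    intro c c' h
    exact e.injective (List.ofFn_injective h)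
  refine ⟨fun x => x.flatMap (code r pay), ?_, ?_, ?_⟩
  · intro x
    induction x with
    | nil => rfl
    | cons c x ih =>
      simp only at ih ⊢
      rw [List.flatMap_cons, List.length_append, ih, code_len hp, List.length_cons]; ring
  · intro x y
    exact ed_flatMap_code (2 * r + 3) (code r pay) (code_len hp) x y
  · intro x y
    obtain ⟨p, hp'⟩ := (ed_reachable (x.flatMap (code r pay))
      (y.flatMap (code r pay))).exists_walk_length_eq_dist
    have h := dec_walk r pay p
    rw [dec_flatMap hp hinj, dec_flatMap hp hinj, hp'] at h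
    exact h

end Crest.Agent.ED
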