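import Mathlib

/-! Row 210 (S0323), chunk C: pointwise character inequality. -/
set_option autoImplicit false

namespace Crest.Agent.ED

/-- `x ↦ exp (2 π i x)` -/
noncomputable def chr (x : ℝ) : ℂ := Complex.exp (Complex.I * ((2 * Real.pi * x : ℝ) : ℂ))

lemma chr_add (x y : ℝ) : chr (x + y) = chr x * chr y := by
  unfold chr; rw [← Complex.exp_add]; congr 1; push_cast; ring

lemma chr_zero : chr 0 = 1 := by simp [chr]

lemma chr_int (k : ℤ) : chr k = 1 := by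
  unfold chr
  rw [Complex.exp_eq_one_iff]
  exact ⟨k, by push_cast; ring⟩

lemma norm_chr (x : ℝ) : ‖chr x‖ = 1 := by
  unfold chr; rw [mul_comm]; exact Complex.norm_exp_ofReal_mul_I _

lemma chr_nat_mul (k : ℕ) (x : ℝ) : chr (k * x) = chr x ^ k := by
  induction k with
  | zero => simp [chr_zero]
  | succ k ih => rw [pow_succ, ← ih, ← chr_add]; congr 1; push_cast; ring

lemma chr_sum {ι : Type*} (s : Finset ι) (f : ι → ℝ) : chr (∑ i ∈ s, f i) = ∏ i ∈ s, chr (f i) := by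
  classical
  induction s using Finset.induction_on with
  | empty => simp [chr_zero]
  | insert a s ha ih => rw [Finset.sum_insert ha, Finset.prod_insert ha, chr_add, ih]

lemma norm_chr_sub (x : ℝ) : ‖1 - chr x‖ = 2 * |Real.sin (Real.pi * x)| := by
  rw [norm_sub_rev]; unfold chr
  rw [Complex.norm_exp_I_mul_ofReal_sub_one]
  rw [norm_mul, Real.norm_eq_abs, Real.norm_eq_abs, abs_of_pos (by norm_num : (0:ℝ) < 2)]
  congr 3; ring

lemma norm_chr_ge {x : ℝ} (hx : |x| ≤ 1/2) : 4 * |x| ≤ ‖1 - chr x‖ := by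
  rw [norm_chr_sub]
  have hpi := Real.pi_pos
  have h := Real.mul_abs_le_abs_sin (x := Real.pi * x) (by
    rw [abs_mul, abs_of_pos hpi]; nlinarith)
  rw [abs_mul, abs_of_pos hpi] at h
  have : 2 / Real.pi * (Real.pi * |x|) = 2 * |x| := by field_simp
  rw [this] at h
  linarith

lemma norm_chr_le (x : ℝ) : ‖1 - chr x‖ ≤ 2 * Real.pi * |x| := by
  rw [norm_chr_sub]
  have hpi := Real.pi_pos
  have h := Real.abs_sin_le_abs (x := Real.pi * x)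
  rw [abs_mul, abs_of_pos hpi] at h
  linarith

lemma chr_sub_int (x : ℝ) (k : ℤ) : chr (x - k) = chr x := by
  have h := chr_add (x - k) k
  rw [chr_int, mul_one] at h
  rw [← h]; congr 1; ring

lemma norm_chr_ge_round (x : ℝ) : 4 * |x - round x| ≤ ‖1 - chr x‖ := by
  rw [← chr_sub_int x (round x)]
  exact norm_chr_ge (abs_sub_round x)

lemma exists_chr {e : ℂ} (he : ‖e‖ = 1) : ∃ x : ℝ, e = chr x := by
  refine ⟨Complex.arg e / (2 * Real.pi), ?_⟩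
  have h := Complex.norm_mul_exp_arg_mul_I e
  rw [he] at h
  unfold chr
  have hpi := Real.pi_pos
  have : 2 * Real.pi * (Complex.arg e / (2 * Real.pi)) = Complex.arg e := by field_simp
  rw [this, mul_comm Complex.I]
  simpa using h.symm

lemma norm_one_sub_prod_le {ι : Type*} (s : Finset ι) (f : ι → ℂ) (hf : ∀ i ∈ s, ‖f i‖ = 1) :
    ‖1 - ∏ i ∈ s, f i‖ ≤ ∑ i ∈ s, ‖1 - f i‖ := by
  classical
  induction s using Finset.induction_on with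
  | empty => simp
  | insert a s ha ih =>
    rw [Finset.sum_insert ha, Finset.prod_insert ha]
    have h1 := ih (fun i hi => hf i (Finset.mem_insert_of_mem hi))
    have h2 : 1 - f a * ∏ i ∈ s, f i = (1 - f a) + f a * (1 - ∏ i ∈ s, f i) := by ring
    rw [h2]
    refine (norm_add_le _ _).trans ?_
    rw [norm_mul, hf a (Finset.mem_insert_self _ _), one_mul]
    linarith

lemma norm_one_sub_pow_le {e : ℂ} (he : ‖e‖ = 1) (k : ℕ) : ‖1 - e ^ k‖ ≤ k * ‖1 - e‖ := by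
  have h := norm_one_sub_prod_le (Finset.range k) (fun _ => e) (fun _ _ => he)
  simpa using h

lemma norm_one_sub_sq {e : ℂ} (he : ‖e‖ = 1) : ‖1 - e‖ ^ 2 = 2 - 2 * e.re := by
  have h1 : ‖e‖ ^ 2 = 1 := by rw [he]; norm_num
  rw [← Complex.normSq_eq_norm_sq] at h1 ⊢
  rw [Complex.normSq_apply] at *
  simp only [Complex.sub_re, Complex.one_re, Complex.sub_im, Complex.one_im]
  nlinarith

/-- the mean over `z` of `‖1 - e ^ z‖ ^ 2` is at least one if `q e`'s are nearly closed and `e` is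
not close to one -/
lemma mean_ge {e : ℂ} (he : ‖e‖ = 1) {q : ℕ} (hq : 0 < q) {σ : ℝ} (hσ1 : σ ≤ 1)
    (h1 : ‖1 - e ^ q‖ ≤ σ) (h2 : 2 / (q : ℝ) ≤ ‖1 - e‖) :
    1 ≤ (1 / (q : ℝ)) * ∑ z ∈ Finset.range q, ‖1 - e ^ z‖ ^ 2 := by
  have hq' : (0:ℝ) < q := by exact_mod_cast hq
  have hg : (∑ z ∈ Finset.range q, e ^ z) * (1 - e) = 1 - e ^ q := by
    have := geom_sum_mul e q
    linear_combination -this
  have hn : ‖∑ z ∈ Finset.range q, e ^ z‖ * ‖1 - e‖ ≤ σ := by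
    rw [← norm_mul, hg]; exact h1
  have hS : ‖∑ z ∈ Finset.range q, e ^ z‖ ≤ q / 2 := by
    have h0 : (0:ℝ) ≤ ‖∑ z ∈ Finset.range q, e ^ z‖ := norm_nonneg _
    have h3 : ‖∑ z ∈ Finset.range q, e ^ z‖ * (2 / q) ≤ 1 :=
      (mul_le_mul_of_nonneg_left h2 h0).trans (hn.trans hσ1)
    rw [mul_div_assoc', div_le_one hq'] at h3
    linarith
  have hre : (∑ z ∈ Finset.range q, e ^ z).re ≤ q / 2 := (Complex.re_le_norm _).trans hS
  have hsum : ∑ z ∈ Finset.range q, ‖1 - e ^ z‖ ^ 2 =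
      2 * q - 2 * (∑ z ∈ Finset.range q, e ^ z).re := by
    rw [Complex.re_sum, Finset.mul_sum]
    have : ∀ z ∈ Finset.range q, ‖1 - e ^ z‖ ^ 2 = 2 - 2 * (e ^ z).re := by
      intro z _
      exact norm_one_sub_sq (by rw [norm_pow, he, one_pow])
    rw [Finset.sum_congr rfl this, Finset.sum_sub_distrib]
    simp [mul_comm]
  rw [hsum, one_div, inv_mul_eq_div, le_div_iff₀ hq']
  linarith

/-- if `∑_{i ∈ S} a i / q i` is very close to an integer then `q i ∣ a i` for all `i ∈ S` -/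
lemma dvd_of_close {n : ℕ} (q : Fin n → ℕ) (hq : ∀ i, 0 < q i)
    (hcop : Pairwise fun i j => Nat.Coprime (q i) (q j)) (a : Fin n → ℤ) (S : Finset (Fin n))
    (K : ℤ) (h : (∏ i ∈ S, (q i : ℝ)) * |∑ i ∈ S, (a i : ℝ) / (q i : ℝ) - K| < 1) :
    ∀ i ∈ S, (q i : ℤ) ∣ a i := by
  classical
  set Z : ℤ := ∑ i ∈ S, a i * ∏ j ∈ S.erase i, (q j : ℤ) - (∏ j ∈ S, (q j : ℤ)) * K with hZ
  have hZr : (Z : ℝ) = (∏ i ∈ S, (q i : ℝ)) * (∑ i ∈ S, (a i : ℝ) / (q i : ℝ) - K) := by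
    rw [hZ]
    push_cast
    rw [mul_sub, Finset.mul_sum]
    congr 1
    refine Finset.sum_congr rfl fun i hi => ?_
    rw [← Finset.mul_prod_erase S (fun j => (q j : ℝ)) hi]
    have : (q i : ℝ) ≠ 0 := by exact_mod_cast (hq i).ne'
    field_simp
  have hpos : (0:ℝ) ≤ ∏ i ∈ S, (q i : ℝ) := Finset.prod_nonneg fun i _ => Nat.cast_nonneg _
  have hZ0 : Z = 0 := by
    have h1 : |(Z : ℝ)| < 1 := by
      rw [hZr, abs_mul, abs_of_nonneg hpos]; exact h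
    have h2 : |Z| < 1 := by exact_mod_cast h1
    exact Int.abs_lt_one_iff.mp h2
  intro i hi
  have h1 : (q i : ℤ) ∣ ∑ j ∈ S, a j * ∏ k ∈ S.erase j, (q k : ℤ) := by
    have : ∑ j ∈ S, a j * ∏ k ∈ S.erase j, (q k : ℤ) = (∏ j ∈ S, (q j : ℤ)) * K := by
      have := hZ0; rw [hZ] at this; linarith
    rw [this]
    exact Dvd.dvd.mul_right (Finset.dvd_prod_of_mem (fun j => (q j : ℤ)) hi) _
  rw [← Finset.add_sum_erase S _ hi] at h1
  have h2 : (q i : ℤ) ∣ ∑ j ∈ S.erase i, a j * ∏ k ∈ S.erase j, (q k : ℤ) := by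
    refine Finset.dvd_sum fun j hj => Dvd.dvd.mul_left ?_ _
    refine Finset.dvd_prod_of_mem (fun j => (q j : ℤ)) ?_
    rw [Finset.mem_erase] at hj ⊢
    exact ⟨fun h => hj.1 h.symm, hi⟩
  have h3 : (q i : ℤ) ∣ a i * ∏ k ∈ S.erase i, (q k : ℤ) := (dvd_add_left h2).mp h1
  refine IsCoprime.dvd_of_dvd_mul_right ?_ h3
  refine IsCoprime.prod_right fun j hj => ?_
  have hne : i ≠ j := fun h => (Finset.mem_erase.mp hj).1 h.symm
  exact Nat.isCoprime_iff_coprime.mpr (hcop hne)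

/-- Proof. Put `σ = 1 / (2 n Q^w)`, so `C ≥ 4/σ²`. LHS `≤ 4`. If `‖1 - ∏ e_i‖ > σ` or some
`‖1 - e_i^(q i)‖ > σ` we are done. Otherwise write `e_i = exp (2πi θ_i)`, `q_i θ_i = a_i + ε_i`,
`a_i = round (q_i θ_i)`, `|ε_i| ≤ 1/2`; `σ ≥ ‖1 - e_i^(q i)‖ = 2 |sin (π ε_i)| ≥ 4 |ε_i|`.
Let `S = {i | ¬ q_i ∣ a_i}`. For `i ∈ S`: `|1 - e_i| ≥ 4 dist(θ_i, ℤ) ≥ 4 (1 - |ε_i|)/q_i ≥ 2/q_i`, so
`|∑_{z<q_i} e_i^z| = |1 - e_i^(q_i)| / |1 - e_i| ≤ σ q_i / 2`, so the mean over `z` of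
`‖1 - e_i^z‖² = 2 - 2 Re e_i^z` is `≥ 2 - σ ≥ 1`.  If `|S| ≥ w` the first term is `≥ 4`: done.
If `|S| < w`: `‖1 - ∏ e_i‖ ≤ σ` shows that `∑ θ_i` is within `σ/4` of an integer, so
`∑_{i∈S} a_i/q_i` is within `σ/4 + ∑ |ε_i|/q_i ≤ n σ` of an integer. Multiply by `M = ∏_{i∈S} q_i ≤ Q^w`:
`M n σ < 1`, so `∑_{i∈S} a_i (M/q_i) ≡ 0 mod M`; modulo `q_i` (`i ∈ S`) this gives `q_i ∣ a_i`:
contradiction unless `S = ∅`.  Then `‖1 - e_i‖ = 2|sin(π ε_i/q_i)| ≤ 2π|ε_i|/q_i ≤ ‖1 - e_i^(q_i)‖` and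
`‖1 - ∏ e_i^(v_i)‖ ≤ ∑ v_i ‖1 - e_i‖ ≤ V ∑ ‖1 - e_i^(q_i)‖`; Cauchy–Schwarz and `V² n ≤ C`. -/
theorem char_ineq {n : ℕ} (q : Fin n → ℕ) (hq2 : ∀ i, 2 ≤ q i) {Q : ℕ} (hqQ : ∀ i, q i ≤ Q)
    (hcop : Pairwise fun i j => Nat.Coprime (q i) (q j))
    (e : Fin n → ℂ) (he : ∀ i, ‖e i‖ = 1) (v : Fin n → ℕ) {V : ℕ} (hv : ∀ i, v i ≤ V)
    {w : ℕ} (hw : 1 ≤ w) {C : ℝ} (hC1 : 16 * (n : ℝ) ^ 2 * (Q : ℝ) ^ (2 * w) ≤ C)
    (hC2 : (V : ℝ) ^ 2 * n ≤ C) :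
    ‖1 - ∏ i, e i ^ v i‖ ^ 2 ≤
      (4 / w) * ∑ i, (1 / (q i : ℝ)) * ∑ z ∈ Finset.range (q i), ‖1 - e i ^ z‖ ^ 2 +
      C * ‖1 - ∏ i, e i‖ ^ 2 + C * ∑ i, ‖1 - e i ^ q i‖ ^ 2 := by
  classical
  rcases Nat.eq_zero_or_pos n with hn | hn
  · subst hn; simp
  have hQ2 : 2 ≤ Q := (hq2 ⟨0, hn⟩).trans (hqQ _)
  have hC0 : 0 ≤ C := le_trans (by positivity) hC1
  choose θ hθ using fun i => exists_chr (he i)
  set F := ∑ i, (1 / (q i : ℝ)) * ∑ z ∈ Finset.range (q i), ‖1 - e i ^ z‖ ^ 2 with hF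
  have hterm0 : ∀ i, 0 ≤ (1 / (q i : ℝ)) * ∑ z ∈ Finset.range (q i), ‖1 - e i ^ z‖ ^ 2 :=
    fun i => by positivity
  have hF0 : 0 ≤ F := Finset.sum_nonneg fun i _ => hterm0 i
  have hw' : (0:ℝ) < w := by exact_mod_cast hw
  have hlhs : ‖1 - ∏ i, e i ^ v i‖ ^ 2 ≤ 4 := by
    have h2 : ‖1 - ∏ i, e i ^ v i‖ ≤ 2 := by
      refine (norm_sub_le _ _).trans ?_
      rw [norm_prod]
      simp only [norm_pow, he, one_pow, Finset.prod_const_one, norm_one]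
      norm_num
    nlinarith [norm_nonneg (1 - ∏ i, e i ^ v i)]
  have hn' : (1:ℝ) ≤ n := by exact_mod_cast hn
  have hQ' : (2:ℝ) ≤ Q := by exact_mod_cast hQ2
  have hQw : (2:ℝ) ≤ (Q:ℝ) ^ w := by
    calc (2:ℝ) ≤ Q := hQ'
      _ = (Q:ℝ) ^ 1 := (pow_one _).symm
      _ ≤ (Q:ℝ) ^ w := pow_le_pow_right₀ (by linarith) hw
  have hden : (0:ℝ) < 2 * n * (Q:ℝ) ^ w := by positivity
  set σ : ℝ := 1 / (2 * n * (Q:ℝ) ^ w) with hσ
  have hσ0 : 0 < σ := by positivity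
  have hσd : σ * (2 * n * (Q:ℝ) ^ w) = 1 := by rw [hσ]; field_simp
  have hσ1 : σ ≤ 1 / 4 := by
    rw [hσ]
    apply one_div_le_one_div_of_le (by norm_num)
    nlinarith
  have hCσ : 4 ≤ C * σ ^ 2 := by
    have h4 : 16 * (n : ℝ) ^ 2 * (Q : ℝ) ^ (2 * w) * σ ^ 2 = 4 := by
      have : 16 * (n : ℝ) ^ 2 * (Q : ℝ) ^ (2 * w) * σ ^ 2 =
          4 * (σ * (2 * n * (Q:ℝ) ^ w)) ^ 2 := by
        rw [mul_comm 2 w, pow_mul]; ring
      rw [this, hσd]; norm_num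
    rw [← h4]
    exact mul_le_mul_of_nonneg_right hC1 (by positivity)
  have hP0 : 0 ≤ C * ‖1 - ∏ i, e i‖ ^ 2 := by positivity
  have hE0 : 0 ≤ ∑ i, ‖1 - e i ^ q i‖ ^ 2 := Finset.sum_nonneg fun i _ => by positivity
  have hE0' : 0 ≤ C * ∑ i, ‖1 - e i ^ q i‖ ^ 2 := mul_nonneg hC0 hE0
  have hF0' : 0 ≤ (4 / w) * F := by positivity
  by_cases h1 : σ < ‖1 - ∏ i, e i‖
  · have : C * σ ^ 2 ≤ C * ‖1 - ∏ i, e i‖ ^ 2 :=
      mul_le_mul_of_nonneg_left (pow_le_pow_left₀ hσ0.le h1.le 2) hC0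
    linarith
  by_cases h2 : ∃ i, σ < ‖1 - e i ^ q i‖
  · obtain ⟨i, hi⟩ := h2
    have h3 : ‖1 - e i ^ q i‖ ^ 2 ≤ ∑ i, ‖1 - e i ^ q i‖ ^ 2 :=
      Finset.single_le_sum (f := fun i => ‖1 - e i ^ q i‖ ^ 2) (fun j _ => by positivity)
        (Finset.mem_univ i)
    have : C * σ ^ 2 ≤ C * ∑ i, ‖1 - e i ^ q i‖ ^ 2 :=
      mul_le_mul_of_nonneg_left ((pow_le_pow_left₀ hσ0.le hi.le 2).trans h3) hC0
    linarith
  push Not at h1 h2
  set a : Fin n → ℤ := fun i => round ((q i : ℝ) * θ i) with ha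
  set ε : Fin n → ℝ := fun i => (q i : ℝ) * θ i - a i with hε
  have hqpos : ∀ i, (0:ℝ) < q i := fun i => by
    have := hq2 i
    exact_mod_cast (by omega : 0 < q i)
  have hq2' : ∀ i, (2:ℝ) ≤ q i := fun i => by exact_mod_cast hq2 i
  have hε4 : ∀ i, 4 * |ε i| ≤ ‖1 - e i ^ q i‖ := by
    intro i
    have := norm_chr_ge_round ((q i : ℝ) * θ i)
    rw [chr_nat_mul, ← hθ] at this
    exact this
  have hεσ : ∀ i, |ε i| ≤ σ / 4 := fun i => by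
    have := (hε4 i).trans (h2 i); linarith
  have hθ' : ∀ i, θ i = a i / q i + ε i / q i := by
    intro i
    have := (hqpos i).ne'
    rw [hε]; field_simp; ring
  set S : Finset (Fin n) := Finset.univ.filter (fun i => ¬ ((q i : ℤ) ∣ a i)) with hS
  have hSe : ∀ i ∈ S, 2 / (q i : ℝ) ≤ ‖1 - e i‖ := by
    intro i hi
    have hnd : ¬ ((q i : ℤ) ∣ a i) := (Finset.mem_filter.mp hi).2
    have h3 := norm_chr_ge_round (θ i)
    rw [← hθ] at h3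
    refine le_trans ?_ h3
    set k := round (θ i) with hk
    have hne : a i - k * q i ≠ 0 := by
      intro h0
      exact hnd ⟨k, by linarith⟩
    have h5 : (1:ℝ) ≤ |((a i - k * q i : ℤ) : ℝ)| := by
      rw [← Int.cast_abs]
      exact_mod_cast Int.one_le_abs hne
    have h6 : θ i - k = (((a i - k * q i : ℤ) : ℝ) + ε i) / q i := by
      rw [hθ' i]; push_cast
      have := (hqpos i).ne'
      field_simp; ring
    rw [h6, abs_div, abs_of_pos (hqpos i), mul_div_assoc']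
    apply div_le_div_of_nonneg_right _ (hqpos i).le
    have h7 : |((a i - k * q i : ℤ) : ℝ)| - |ε i| ≤ |((a i - k * q i : ℤ) : ℝ) + ε i| := by
      have := abs_sub_abs_le_abs_sub ((a i - k * q i : ℤ) : ℝ) (-(ε i))
      rwa [abs_neg, sub_neg_eq_add] at this
    have h8 := hεσ i
    linarith
  by_cases h3 : w ≤ S.card
  · have h4 : (w : ℝ) ≤ F := by
      calc (w : ℝ) ≤ S.card := by exact_mod_cast h3
        _ = ∑ i ∈ S, (1:ℝ) := by simp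
        _ ≤ ∑ i ∈ S, (1 / (q i : ℝ)) * ∑ z ∈ Finset.range (q i), ‖1 - e i ^ z‖ ^ 2 := by
            refine Finset.sum_le_sum fun i hi => ?_
            exact mean_ge (he i) (by have := hq2 i; omega) (by linarith : σ ≤ 1) (h2 i) (hSe i hi)
        _ ≤ F := Finset.sum_le_sum_of_subset_of_nonneg (Finset.subset_univ _)
            fun i _ _ => hterm0 i
    have h5 : (4:ℝ) ≤ 4 / w * F := by
      rw [div_mul_eq_mul_div, le_div_iff₀ hw']; linarith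
    linarith
  push Not at h3
  -- `S = ∅`
  have hSdvd : ∀ i ∈ S, (q i : ℤ) ∣ a i := by
    have h4 := norm_chr_ge_round (∑ i, θ i)
    rw [chr_sum] at h4
    have h5 : ∏ i, chr (θ i) = ∏ i, e i := Finset.prod_congr rfl fun i _ => (hθ i).symm
    rw [h5] at h4
    set N := round (∑ i, θ i) with hN
    refine dvd_of_close q (fun i => by have := hq2 i; omega) hcop a S
      (N - ∑ i ∈ Sᶜ, a i / (q i : ℤ)) ?_
    have h6 : ∑ i, θ i = ∑ i ∈ S, (a i : ℝ) / (q i : ℝ) +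
        ((∑ i ∈ Sᶜ, a i / (q i : ℤ) : ℤ) : ℝ) + ∑ i, ε i / q i := by
      have h7 : ((∑ i ∈ Sᶜ, a i / (q i : ℤ) : ℤ) : ℝ) = ∑ i ∈ Sᶜ, (a i : ℝ) / (q i : ℝ) := by
        push_cast
        refine Finset.sum_congr rfl fun i hi => ?_
        have hd : (q i : ℤ) ∣ a i := by
          by_contra hnd
          exact (Finset.mem_compl.mp hi) (Finset.mem_filter.mpr ⟨Finset.mem_univ _, hnd⟩)
        rw [Int.cast_div hd (by exact_mod_cast (hqpos i).ne')]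
        push_cast; rfl
      rw [h7, Finset.sum_add_sum_compl, ← Finset.sum_add_distrib]
      exact Finset.sum_congr rfl fun i _ => hθ' i
    have h8 : |∑ i, ε i / (q i : ℝ)| ≤ n * (σ / 8) := by
      calc |∑ i, ε i / (q i : ℝ)| ≤ ∑ i, |ε i / (q i : ℝ)| := Finset.abs_sum_le_sum_abs _ _
        _ ≤ ∑ i : Fin n, σ / 8 := by
            refine Finset.sum_le_sum fun i _ => ?_
            rw [abs_div, abs_of_pos (hqpos i), div_le_iff₀ (hqpos i)]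
            nlinarith [hεσ i, hq2' i]
        _ = n * (σ / 8) := by simp
    have h9 : |∑ i ∈ S, (a i : ℝ) / (q i : ℝ) - ((N - ∑ i ∈ Sᶜ, a i / (q i : ℤ) : ℤ) : ℝ)| ≤
        σ / 4 + n * (σ / 8) := by
      have h10 : ∑ i ∈ S, (a i : ℝ) / (q i : ℝ) - ((N - ∑ i ∈ Sᶜ, a i / (q i : ℤ) : ℤ) : ℝ) =
          (∑ i, θ i - N) - ∑ i, ε i / (q i : ℝ) := by
        rw [h6, Int.cast_sub]; ring
      rw [h10]
      refine (abs_sub _ _).trans ?_
      have : |∑ i, θ i - N| ≤ σ / 4 := by linarith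
      linarith
    have h11 : ∏ i ∈ S, (q i : ℝ) ≤ (Q:ℝ) ^ w := by
      calc ∏ i ∈ S, (q i : ℝ) ≤ ∏ i ∈ S, (Q : ℝ) :=
            Finset.prod_le_prod (fun i _ => (hqpos i).le) fun i _ => by exact_mod_cast hqQ i
        _ = (Q:ℝ) ^ S.card := by simp
        _ ≤ (Q:ℝ) ^ w := pow_le_pow_right₀ (by linarith) h3.le
    have hp0 : (0:ℝ) ≤ ∏ i ∈ S, (q i : ℝ) := Finset.prod_nonneg fun i _ => (hqpos i).le
    calc (∏ i ∈ S, (q i : ℝ)) *
          |∑ i ∈ S, (a i : ℝ) / (q i : ℝ) - ((N - ∑ i ∈ Sᶜ, a i / (q i : ℤ) : ℤ) : ℝ)|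
        ≤ (Q:ℝ) ^ w * (σ / 4 + n * (σ / 8)) :=
          mul_le_mul h11 h9 (abs_nonneg _) (by positivity)
      _ ≤ (Q:ℝ) ^ w * (n * σ) := by
          apply mul_le_mul_of_nonneg_left _ (by positivity)
          nlinarith
      _ = 1 / 2 := by
          have : (Q:ℝ) ^ w * (n * σ) = (σ * (2 * n * (Q:ℝ) ^ w)) / 2 := by ring
          rw [this, hσd]
      _ < 1 := by norm_num
  have hall : ∀ i, (q i : ℤ) ∣ a i := by
    intro i
    by_contra hnd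
    exact hnd (hSdvd i (Finset.mem_filter.mpr ⟨Finset.mem_univ _, hnd⟩))
  have hei : ∀ i, ‖1 - e i‖ ≤ ‖1 - e i ^ q i‖ := by
    intro i
    obtain ⟨b, hb⟩ := hall i
    have h4 : θ i - b = ε i / q i := by
      rw [hθ' i, hb]; push_cast
      have := (hqpos i).ne'
      field_simp; ring
    rw [hθ i, ← chr_sub_int (θ i) b, h4]
    have h5 := norm_chr_le (ε i / q i)
    rw [abs_div, abs_of_pos (hqpos i)] at h5
    have h6 : |ε i| / q i ≤ |ε i| / 2 := by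
      apply div_le_div_of_nonneg_left (abs_nonneg _) (by norm_num) (hq2' i)
    have h7 := hε4 i
    have h8 : chr (ε i / q i) ^ q i = e i ^ q i := by
      rw [← h4, chr_sub_int, ← hθ]
    rw [h8]
    have hpi := Real.pi_le_four
    have hpi0 := Real.pi_pos
    have h9 : 2 * Real.pi * (|ε i| / q i) ≤ 4 * |ε i| := by
      calc 2 * Real.pi * (|ε i| / q i) ≤ 2 * Real.pi * (|ε i| / 2) :=
            mul_le_mul_of_nonneg_left h6 (by positivity)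
        _ = Real.pi * |ε i| := by ring
        _ ≤ 4 * |ε i| := mul_le_mul_of_nonneg_right hpi (abs_nonneg _)
    linarith
  have hV : ‖1 - ∏ i, e i ^ v i‖ ≤ V * ∑ i, ‖1 - e i ^ q i‖ := by
    refine (norm_one_sub_prod_le Finset.univ (fun i => e i ^ v i)
      (fun i _ => by rw [norm_pow, he, one_pow])).trans ?_
    rw [Finset.mul_sum]
    refine Finset.sum_le_sum fun i _ => ?_
    refine (norm_one_sub_pow_le (he i) (v i)).trans ?_
    exact mul_le_mul (by exact_mod_cast hv i) (hei i) (norm_nonneg _) (Nat.cast_nonneg _)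
  have hcs : (∑ i, ‖1 - e i ^ q i‖) ^ 2 ≤ n * ∑ i, ‖1 - e i ^ q i‖ ^ 2 := by
    have := sq_sum_le_card_mul_sum_sq (s := (Finset.univ : Finset (Fin n)))
      (f := fun i => ‖1 - e i ^ q i‖)
    simpa using this
  have hfin : ‖1 - ∏ i, e i ^ v i‖ ^ 2 ≤ C * ∑ i, ‖1 - e i ^ q i‖ ^ 2 := by
    calc ‖1 - ∏ i, e i ^ v i‖ ^ 2 ≤ (V * ∑ i, ‖1 - e i ^ q i‖) ^ 2 :=
          pow_le_pow_left₀ (norm_nonneg _) hV 2
      _ = (V:ℝ) ^ 2 * (∑ i, ‖1 - e i ^ q i‖) ^ 2 := by ring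
      _ ≤ (V:ℝ) ^ 2 * (n * ∑ i, ‖1 - e i ^ q i‖ ^ 2) :=
          mul_le_mul_of_nonneg_left hcs (by positivity)
      _ = (V:ℝ) ^ 2 * n * ∑ i, ‖1 - e i ^ q i‖ ^ 2 := by ring
      _ ≤ C * ∑ i, ‖1 - e i ^ q i‖ ^ 2 := mul_le_mul_of_nonneg_right hC2 hE0
  linarith

end Crest.Agent.ED
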