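import Mathlib
import Crest.Prelude.Def_EditDistance

/-! Row 210 (S0323): definitions of the recursive construction.

`n` coordinates, `n+1` pairwise coprime moduli `m a`, `a : Fin (n+1)`.  A level of the construction
(`Sys n`) is a finite abelian group `G`, words `enc a y` (`y : G`, `a : Fin (n+1)`) of the same length
over a finite alphabet and elements `rho a : G` of "approximate order `m a`" (`Sys.Per`).
The next level (`Sys.next`) has group `Fin n → G`; the word of `y` is the concatenation over
`j < s`, `i < n` of the words `enc (a.succAbove i) (y i + j • rho (a.succAbove i))`, labelled by `i`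
(the blocks, `b = j * n + i`).  So adding `g = (rho (a.succAbove i))_i` to `y` is a cheap shift. The
new `rho a` is `g / m a`: `i ↦ u a i • rho (a.succAbove i)`, `m a * u a i ≡ 1 [MOD m (a.succAbove i)]`. -/
set_option autoImplicit false

open Crest.GeometryTopology.EditDistance

namespace Crest.Agent.ED

/-- a level of the construction -/
structure Sys (n : ℕ) where
  G : Type
  instG : AddCommGroup G
  finG : Finite G
  S : Type
  finS : Finite S
  len : ℕ
  enc : Fin (n + 1) → G → List S
  rho : Fin (n + 1) → G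
  enc_len : ∀ a y, (enc a y).length = len

attribute [instance] Sys.instG Sys.finG Sys.finS

variable {n : ℕ} [NeZero n]

/-- the `b`-th block of the word of `y` at the next level (defined for all `b`) -/
def Sys.blk (A : Sys n) (a : Fin (n + 1)) (y : Fin n → A.G) (b : ℕ) : List (Fin n × A.S) :=
  (A.enc (a.succAbove (Fin.ofNat n b))
    (y (Fin.ofNat n b) + (b / n) • A.rho (a.succAbove (Fin.ofNat n b)))).map
      (Prod.mk (Fin.ofNat n b))

theorem Sys.blk_len (A : Sys n) (a : Fin (n + 1)) (y : Fin n → A.G) (b : ℕ) :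
    (A.blk a y b).length = A.len := by
  simp [Sys.blk, A.enc_len]

/-- next level -/
def Sys.next (A : Sys n) (s : ℕ) (u : Fin (n + 1) → Fin n → ℕ) : Sys n where
  G := Fin n → A.G
  instG := inferInstance
  finG := inferInstance
  S := Fin n × A.S
  finS := inferInstance
  len := s * n * A.len
  enc := fun a y => (List.range (s * n)).flatMap (A.blk a y)
  rho := fun a i => u a i • A.rho (a.succAbove i)
  enc_len := by
    intro a y
    rw [List.length_flatMap]
    simp [A.blk_len]

/-- base level: a single letter, the residue `y a` modulo `m a` -/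
def Sys.base (m : Fin (n + 1) → ℕ) (hm : ∀ a, 2 ≤ m a) (Q : ℕ) : Sys n where
  G := (a : Fin (n + 1)) → ZMod (m a)
  instG := inferInstance
  finG := by
    have : ∀ a, NeZero (m a) := fun a => ⟨by have := hm a; omega⟩
    infer_instance
  S := Fin (Q + 1)
  finS := inferInstance
  len := 1
  enc := fun a y => [Fin.ofNat (Q + 1) (y a).val]
  rho := fun _ => 1
  enc_len := fun _ _ => rfl

/-- lower bound: `t • rho a` moves words far away unless `m a ∣ t` -/
def Sys.Low (A : Sys n) (m : Fin (n + 1) → ℕ) (c : ℝ) (T : ℕ) : Prop :=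
  ∀ (a : Fin (n + 1)) (y : A.G) (t : ℤ), ¬ ((m a : ℤ) ∣ t) → |t| ≤ T →
    c * A.len ≤ (editDist (A.enc a y) (A.enc a (y + t • A.rho a)) : ℝ)

/-- `rho a` has approximate order `m a` -/
def Sys.Per (A : Sys n) (m : Fin (n + 1) → ℕ) (β : ℕ) : Prop :=
  ∀ (a : Fin (n + 1)) (y : A.G), editDist (A.enc a y) (A.enc a (y + m a • A.rho a)) ≤ β

/-- nonnegative combinations of `‖1 - χ‖²`, `χ` characters -/
def NegT {G : Type} [AddCommGroup G] (Δ : G → ℝ) : Prop :=
  ∃ (I : Type) (_ : Fintype I) (ν : I → ℝ) (χ : I → G → ℂ), (∀ i, 0 ≤ ν i) ∧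
    (∀ i g, ‖χ i g‖ = 1) ∧ (∀ i g h, χ i (g + h) = χ i g * χ i h) ∧
    ∀ g, Δ g = ∑ i, ν i * ‖1 - χ i g‖ ^ 2

/-- upper bound: a negative type function which is `L`-Lipschitz with respect to translation
costs is at most `L * (α * len)` at small multiples of `rho a` -/
def Sys.Upp (A : Sys n) (Q : ℕ) (α : ℝ) : Prop :=
  ∀ (a : Fin (n + 1)) (Δ : A.G → ℝ) (L : ℝ), NegT Δ → 0 ≤ L →
    (∀ (t : A.G) (C : ℕ), (∀ y, editDist (A.enc a y) (A.enc a (y + t)) ≤ C) → Δ t ≤ L * C) →
    ∀ z : ℕ, z ≤ Q → Δ (z • A.rho a) ≤ L * (α * A.len)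

end Crest.Agent.ED
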