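import Mathlib
import Crest.Agent.ED.Edit
import Crest.Agent.ED.Defs

/-! Row 210 (S0323), chunk L: the lower bound step. -/
set_option autoImplicit false

open Crest.GeometryTopology.EditDistance

namespace Crest.Agent.ED

/-- a segment all of whose letters satisfy `p` -/
theorem low_count_seg {α : Type} (p : α → Bool) (w : List α) (a k : ℕ) (h : a + k ≤ w.length)
    (hall : ∀ t (ht : t < w.length), a ≤ t → t < a + k → p (w[t]) = true) : k ≤ w.countP p := by
  have h1 : ((w.drop a).take k).Sublist w :=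
    (List.take_sublist _ _).trans (List.drop_sublist _ _)
  have h2 := h1.countP_le (p := p)
  have h3 : ((w.drop a).take k).length = k := by
    rw [List.length_take, List.length_drop]; omega
  have h4 : ((w.drop a).take k).countP p = ((w.drop a).take k).length := by
    rw [List.countP_eq_length]
    intro c hc
    rw [List.mem_iff_getElem] at hc
    obtain ⟨t, ht, rfl⟩ := hc
    rw [List.getElem_take, List.getElem_drop]
    apply hall
    · omega
    · omega
  omega

theorem low_div_mod_ne {n b : ℕ} (hn : 2 ≤ n) : b % n ≠ (b + 1) % n := by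
  intro h
  have h1 : (b + 1) ≡ b [MOD n] := h.symm
  have h2 := (Nat.modEq_iff_dvd' (Nat.le_succ b)).1 h1.symm
  simp at h2
  omega

/-- Locating a cheap piece.  `X` is a word over `α` with a label function `lab`, cut into `N` blocks of
length `ℓ`; the letters of block `b` have label `b % n` (`2 ≤ n`).  `v` is a word of length `ℓ` all of
whose letters have label `i < n`, `w = X[P, P + len)` a factor of `X` and `e = editDist v w` with
`5 * e < ℓ`.  Then there is a block `b'` with label `i`, meeting the window, with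
`editDist v (X[b'ℓ, (b'+1)ℓ)) ≤ 5 * e`.

Proof. At most `e` letters of `w` have label `≠ i` (`ed_countP`), and `|len - ℓ| ≤ e` (`ed_length`).
Let `p₀ ∈ [P, P+len)` be a position with label `i`, `b' = p₀ / ℓ`. If `P + e < b' ℓ` then the last `e+1`
positions of block `b' - 1` (label `≠ i`) are in the window: contradiction. Likewise
`P + len ≤ (b'+1) ℓ + e`. So `|P - b'ℓ| ≤ 2e`, `|P + len - (b'+1)ℓ| ≤ 2e`, and `ed_window` gives
`editDist w (block b') ≤ 4e`; triangle inequality. -/
theorem locate {α : Type} (lab : α → ℕ) {n N ℓ : ℕ} (hn : 2 ≤ n) (X : List α)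
    (hX : X.length = N * ℓ)
    (hlab : ∀ (p : ℕ) (hp : p < X.length), lab (X[p]) = (p / ℓ) % n)
    (v w : List α) (i : ℕ) (hv : v.length = ℓ) (hvi : ∀ c ∈ v, lab c = i)
    (P : ℕ) (hw : (X.drop P).take w.length = w) (he : 5 * editDist v w < ℓ) :
    ∃ b' < N, b' % n = i ∧ (∃ p₀, p₀ / ℓ = b' ∧ P ≤ p₀ ∧ p₀ < P + w.length) ∧
      editDist v ((X.drop (b' * ℓ)).take ℓ) ≤ 5 * editDist v w := by
  set e := editDist v w with hedef
  have hl1 : v.length ≤ w.length + e := ed_length v w
  have hl2 : w.length ≤ v.length + e := by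
    have := ed_length w v
    rwa [ed_comm w v] at this
  rw [hv] at hl1 hl2
  have hlen : P + w.length ≤ X.length := by
    have h1 : ((X.drop P).take w.length).length = w.length := by rw [hw]
    rw [List.length_take, List.length_drop] at h1
    omega
  have hwt : ∀ t (ht : t < w.length), w[t] = X[P + t]'(by omega) := by
    intro t ht
    have h1 : w[t] = ((X.drop P).take w.length)[t]'(by rw [hw]; exact ht) := by
      congr 1; exact hw.symm
    rw [h1, List.getElem_take, List.getElem_drop]
  set p : α → Bool := fun c => decide (lab c ≠ i) with hp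
  have hcount : w.countP p ≤ e := by
    have h1 := ed_countP p w v
    rw [ed_comm w v] at h1
    have h2 : v.countP p = 0 := by
      rw [List.countP_eq_zero]
      intro c hc
      simp [hp, hvi c hc]
    omega
  -- a position with label i
  obtain ⟨t0, ht0, hlab0⟩ : ∃ t, ∃ ht : t < w.length, lab (w[t]) = i := by
    by_contra hcon
    push Not at hcon
    have := low_count_seg p w 0 w.length (by omega) (by
      intro t ht _ _
      simp [hp, hcon t ht])
    omega
  rw [hwt t0 ht0, hlab] at hlab0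
  obtain ⟨b', hb'⟩ : ∃ b', b' = (P + t0) / ℓ := ⟨_, rfl⟩
  rw [← hb'] at hlab0
  have hl0 : 0 < ℓ := by omega
  have hdm := Nat.div_add_mod (P + t0) ℓ
  have hmod := Nat.mod_lt (P + t0) hl0
  rw [← hb'] at hdm
  have hbN : b' < N := by
    rw [hb']
    apply Nat.div_lt_of_lt_mul
    rw [Nat.mul_comm, ← hX]; omega
  have hcomm : ℓ * b' = b' * ℓ := Nat.mul_comm _ _
  -- claim 2
  have hc2 : b' * ℓ ≤ P + e := by
    by_contra hlt
    push Not at hlt
    have hb1 : 1 ≤ b' := by
      by_contra h0
      have : b' = 0 := by omega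
      rw [this] at hlt
      simp at hlt
    obtain ⟨b1, hb1e⟩ : ∃ b1, b' = b1 + 1 := ⟨b' - 1, by omega⟩
    have hmul : b' * ℓ = b1 * ℓ + ℓ := by rw [hb1e]; ring
    have := low_count_seg p w (b' * ℓ - 1 - e - P) (e + 1) (by omega) (by
      intro t ht h1 h2
      rw [hp]
      simp only [decide_eq_true_eq]
      rw [hwt t ht, hlab]
      have h3 : (P + t) / ℓ = b1 := by
        apply Nat.div_eq_of_lt_le
        · omega
        · rw [Nat.succ_mul]; omega
      rw [h3, ← hlab0, hb1e]
      exact low_div_mod_ne hn)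
    omega
  -- claim 3
  have hc3 : P + w.length ≤ (b' + 1) * ℓ + e := by
    by_contra hlt
    push Not at hlt
    have hmul : (b' + 1) * ℓ = b' * ℓ + ℓ := by ring
    have := low_count_seg p w ((b' + 1) * ℓ - P) (e + 1) (by omega) (by
      intro t ht h1 h2
      rw [hp]
      simp only [decide_eq_true_eq]
      rw [hwt t ht, hlab]
      have h3 : (P + t) / ℓ = b' + 1 := by
        apply Nat.div_eq_of_lt_le
        · omega
        · rw [Nat.succ_mul]; omega
      rw [h3, ← hlab0]
      exact (low_div_mod_ne hn).symm)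
    omega
  have hmul : (b' + 1) * ℓ = b' * ℓ + ℓ := by ring
  refine ⟨b', hbN, hlab0, ⟨P + t0, hb'.symm, by omega, by omega⟩, ?_⟩
  have h1 : w = (X.take (P + w.length)).drop P := by
    rw [List.drop_take]
    have : P + w.length - P = w.length := by omega
    rw [this, hw]
  have h2 : (X.drop (b' * ℓ)).take ℓ = (X.take (b' * ℓ + ℓ)).drop (b' * ℓ) := by
    rw [List.drop_take]
    have : b' * ℓ + ℓ - b' * ℓ = ℓ := by omega
    rw [this]
  have h3 := ed_window X P (P + w.length) (b' * ℓ) (b' * ℓ + ℓ)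
  rw [← h1, ← h2] at h3
  have h4 := ed_triangle v w ((X.drop (b' * ℓ)).take ℓ)
  omega

/-- a nonzero integer of absolute value `< 2^κ` is divisible by at most `κ` of the pairwise coprime
moduli `m a ≥ 2` -/
theorem card_dvd_le {ι : Type} [Fintype ι] (q : ι → ℕ) (hq2 : ∀ i, 2 ≤ q i)
    (hcop : Pairwise fun i j => Nat.Coprime (q i) (q j)) (X : ℤ) (hX : X ≠ 0) {κ : ℕ}
    (hκ : |X| < 2 ^ κ) [DecidablePred fun i => (q i : ℤ) ∣ X] :
    (Finset.univ.filter fun i => (q i : ℤ) ∣ X).card ≤ κ := by
  set F := Finset.univ.filter fun i => (q i : ℤ) ∣ X with hF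
  have h1 : (∏ i ∈ F, (q i : ℤ)) ∣ X := by
    apply Finset.prod_dvd_of_coprime
    · intro i _ j _ hij
      exact Nat.isCoprime_iff_coprime.2 (hcop hij)
    · intro i hi
      exact (Finset.mem_filter.1 hi).2
  have h2 : (2:ℤ) ^ F.card ≤ ∏ i ∈ F, (q i : ℤ) := by
    rw [← Finset.prod_const]
    apply Finset.prod_le_prod
    · intro i _; norm_num
    · intro i _; exact_mod_cast hq2 i
  have h3 : (∏ i ∈ F, (q i : ℤ)) ≤ |X| :=
    Int.le_of_dvd (abs_pos.2 hX) ((dvd_abs _ _).2 h1)
  have h4 : (2:ℤ) ^ F.card < 2 ^ κ := lt_of_le_of_lt (h2.trans h3) hκ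
  exact (pow_lt_pow_iff_right₀ (by norm_num : (1:ℤ) < 2)).1 h4 |>.le

/-! ### flatMap bookkeeping -/

theorem low_flatMap_length {α : Type} (N : ℕ) (f : ℕ → List α) :
    ((List.range N).flatMap f).length = ∑ k ∈ Finset.range N, (f k).length := by
  induction N with
  | zero => simp
  | succ N ih =>
    rw [List.range_succ, List.flatMap_append, List.length_append, ih, Finset.sum_range_succ]
    simp

theorem low_flatMap_drop {α : Type} (N : ℕ) (f : ℕ → List α) (b : ℕ) (hb : b < N) :
    ∃ rest, ((List.range N).flatMap f).drop (∑ k ∈ Finset.range b, (f k).length) =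
      f b ++ rest := by
  induction N with
  | zero => omega
  | succ N ih =>
    rw [List.range_succ, List.flatMap_append]
    have hN : [N].flatMap f = f N := by simp
    rw [hN]
    rcases Nat.lt_succ_iff_lt_or_eq.1 hb with hb' | rfl
    · obtain ⟨rest, hr⟩ := ih hb'
      refine ⟨rest ++ f N, ?_⟩
      rw [List.drop_append_of_le_length, hr, List.append_assoc]
      rw [low_flatMap_length]
      exact Finset.sum_le_sum_of_subset (Finset.range_mono hb'.le)
    · refine ⟨[], ?_⟩
      rw [← low_flatMap_length, List.drop_left, List.append_nil]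

theorem low_flatMap_take {α : Type} (N : ℕ) (f : ℕ → List α) (b : ℕ) (hb : b < N) :
    (((List.range N).flatMap f).drop (∑ k ∈ Finset.range b, (f k).length)).take (f b).length =
      f b := by
  obtain ⟨rest, hr⟩ := low_flatMap_drop N f b hb
  rw [hr, List.take_left']
  rfl

theorem low_flatMap_const {α : Type} (N ℓ : ℕ) (f : ℕ → List α) (hf : ∀ b, (f b).length = ℓ)
    (b : ℕ) (hb : b < N) :
    (((List.range N).flatMap f).drop (b * ℓ)).take ℓ = f b := by
  have h := low_flatMap_take N f b hb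
  have h1 : ∑ k ∈ Finset.range b, (f k).length = b * ℓ := by
    rw [Finset.sum_congr rfl (fun k _ => hf k)]; simp
  rw [h1, hf] at h
  exact h

/-! ### counting cheap blocks -/

theorem low_count_cheap {n s κ : ℕ} [NeZero n] (C : Finset ℕ) (hC : ∀ b ∈ C, b < s * n)
    (B' : ℕ → ℕ) (hB : ∀ b ∈ C, B' b < s * n)
    (hmono : ∀ b₁ ∈ C, ∀ b₂ ∈ C, b₁ < b₂ → B' b₁ ≤ B' b₂) (q : Fin n → ℕ) (hq2 : ∀ i, 2 ≤ q i)
    (hcop : Pairwise fun i j => Nat.Coprime (q i) (q j)) (t M : ℤ)
    (hdvd : ∀ b ∈ C, (q (Fin.ofNat n b) : ℤ) ∣ t + M * (((B' b / n : ℕ) : ℤ) - ((b / n : ℕ) : ℤ)))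
    (hne : ∀ z : ℤ, t + M * z ≠ 0) (hbd : ∀ z : ℤ, |z| < s → |t + M * z| < 2 ^ κ) :
    C.card ≤ κ * (2 * s) := by
  have hn0 : 0 < n := Nat.pos_of_ne_zero (NeZero.ne n)
  have hdiv : ∀ b, b < s * n → b / n < s := fun b hb => Nat.div_lt_of_lt_mul (by rwa [Nat.mul_comm] at hb)
  have key : ∀ k ∈ Finset.range (2 * s),
      (C.filter fun b => b / n + B' b / n = k).card ≤ κ := by
    intro k _
    rcases (C.filter fun b => b / n + B' b / n = k).eq_empty_or_nonempty with h0 | ⟨b0, hb0⟩
    · rw [h0]; simp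
    rw [Finset.mem_filter] at hb0
    have hconst : ∀ b ∈ C.filter (fun b => b / n + B' b / n = k), b / n = b0 / n ∧
        B' b / n = B' b0 / n := by
      intro b hb
      rw [Finset.mem_filter] at hb
      rcases lt_trichotomy b b0 with h | h | h
      · have h1 := Nat.div_le_div_right (c := n) h.le
        have h2 := Nat.div_le_div_right (c := n) (hmono b hb.1 b0 hb0.1 h)
        omega
      · rw [h]; exact ⟨rfl, rfl⟩
      · have h1 := Nat.div_le_div_right (c := n) h.le
        have h2 := Nat.div_le_div_right (c := n) (hmono b0 hb0.1 b hb.1 h)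
        omega
    set X : ℤ := t + M * (((B' b0 / n : ℕ) : ℤ) - ((b0 / n : ℕ) : ℤ)) with hX
    have hX0 : X ≠ 0 := hne _
    have hXb : |X| < 2 ^ κ := by
      apply hbd
      have h1 := hdiv b0 (hC b0 hb0.1)
      have h2 := hdiv _ (hB b0 hb0.1)
      rw [abs_lt]
      constructor
      · have : ((b0 / n : ℕ) : ℤ) < s := by exact_mod_cast h1
        have : (0:ℤ) ≤ ((B' b0 / n : ℕ) : ℤ) := by positivity
        linarith
      · have : ((B' b0 / n : ℕ) : ℤ) < s := by exact_mod_cast h2
        have : (0:ℤ) ≤ ((b0 / n : ℕ) : ℤ) := by positivity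
        linarith
    classical
    refine le_trans ?_ (card_dvd_le q hq2 hcop X hX0 hXb)
    apply Finset.card_le_card_of_injOn (fun b => Fin.ofNat n b)
    · intro b hb
      have h1 := hconst b hb
      have h2 := hdvd b (Finset.mem_filter.1 hb).1
      rw [h1.1, h1.2] at h2
      simp only [Finset.coe_filter, Finset.mem_univ, true_and, Set.mem_ofPred_eq]
      exact h2
    · intro b hb b2 hb2 heq
      have h1 := hconst b hb
      have h2 := hconst b2 hb2
      have h3 : b % n = b2 % n := by
        have := congrArg Fin.val heq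
        simpa using this
      have h4 := Nat.div_add_mod b n
      have h5 := Nat.div_add_mod b2 n
      rw [h1.1] at h4
      rw [h2.1] at h5
      omega
  have := Finset.card_le_mul_card_image_of_maps_to (s := C) (t := Finset.range (2 * s))
    (f := fun b => b / n + B' b / n) (by
      intro b hb
      have h1 := hdiv b (hC b hb)
      have h2 := hdiv _ (hB b hb)
      rw [Finset.mem_range]; omega) κ key
  rwa [Finset.card_range] at this

theorem low_blk_label {n : ℕ} [NeZero n] (A : Sys n) (a : Fin (n + 1)) (y : Fin n → A.G) (b : ℕ) :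
    ∀ c ∈ A.blk a y b, (c.1 : ℕ) = b % n := by
  intro c hc
  unfold Sys.blk at hc
  rw [List.mem_map] at hc
  obtain ⟨d, _, rfl⟩ := hc
  simp

theorem low_blk_compare {n : ℕ} [NeZero n] (A : Sys n) (u : Fin (n + 1) → Fin n → ℕ)
    (a : Fin (n + 1)) (y : Fin n → A.G) (t : ℤ) (b b' : ℕ) (hbb : b' % n = b % n) :
    editDist (A.enc (a.succAbove (Fin.ofNat n b)) (y (Fin.ofNat n b) +
        (b / n) • A.rho (a.succAbove (Fin.ofNat n b))))
      (A.enc (a.succAbove (Fin.ofNat n b)) ((y (Fin.ofNat n b) +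
        (b / n) • A.rho (a.succAbove (Fin.ofNat n b))) +
        (t * u a (Fin.ofNat n b) + (((b' / n : ℕ) : ℤ) - ((b / n : ℕ) : ℤ))) •
          A.rho (a.succAbove (Fin.ofNat n b)))) ≤
      editDist (A.blk a y b)
        (A.blk a (fun i => y i + t • (u a i • A.rho (a.succAbove i))) b') := by
  have hi : Fin.ofNat n b' = Fin.ofNat n b := by
    apply Fin.ext
    simpa using hbb
  have h1 := ed_map Prod.snd (A.blk a y b)
    (A.blk a (fun i => y i + t • (u a i • A.rho (a.succAbove i))) b')
  refine le_trans (le_of_eq ?_) h1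
  unfold Sys.blk
  rw [hi, List.map_map, List.map_map]
  have hid : ∀ i : Fin n, (Prod.snd ∘ Prod.mk i : A.S → A.S) = id := fun i => rfl
  rw [hid, List.map_id, List.map_id]
  congr 2
  simp only [← natCast_zsmul]
  module

/-- The lower bound step.

Proof. Let `x = enc' a y`, `y' = y + t • rho' a`, `x' = enc' a y'`. `ed_split_flatMap` cuts `x'` into
pieces `w_b`, `b < s n`, with `∑ ed (blk b) (w_b) ≤ ed x x'`. Call `b` cheap if
`5 * ed (blk b) (w_b) < c * ℓ`. If `b = j n + i` is cheap, `locate` gives `b' = j' n + i` with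
`ed (blk y b) (blk y' b') ≤ 5 ed (blk b) (w_b) < c ℓ`; the words (without labels) are
`enc (a_i) Y` and `enc (a_i) (Y + (t u_i + j' - j) • ρ_i)`, `Y = y i + j • ρ_i`, so `hlow` shows
`m (a_i) ∣ t u_i + j' - j`, hence `m (a_i) ∣ X := t + m a (j' - j) ≠ 0`, `|X| < 2^κ`.
Since the windows are ordered, `b ↦ (j, j')` is monotone in both coordinates on cheap `b`, so
`(j, j')` is determined by `j + j' < 2 s`, and for given `(j,j')` there are at most `κ` cheap `b`
(`card_dvd_le`). So there are at most `2 s κ ≤ s n / 2` cheap `b`; the other `≥ s n / 2` ones have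
`ed (blk b) (w_b) ≥ c ℓ / 5`. -/
theorem low_step {n : ℕ} [NeZero n] (A : Sys n) (m : Fin (n + 1) → ℕ) (hm2 : ∀ a, 2 ≤ m a)
    {Q : ℕ} (hmQ : ∀ a, m a ≤ Q) (hcop : Pairwise fun a b => Nat.Coprime (m a) (m b))
    (u : Fin (n + 1) → Fin n → ℕ)
    (hu : ∀ a i, m a * u a i ≡ 1 [MOD m (a.succAbove i)])
    (hu' : ∀ a i, u a i < m (a.succAbove i)) {c : ℝ} (hc0 : 0 < c) (hc1 : c ≤ 1)
    {s T T' κ : ℕ} (hs : 0 < s) (hT : Q * T' + s ≤ T) (hκ : T' + Q * s < 2 ^ κ)
    (hn : 4 * κ ≤ n) (hn2 : 2 ≤ n) (hlow : A.Low m c T) :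
    (A.next s u).Low m (c / 10) T' := by
  intro a y t ht htT
  set ℓ := A.len with hℓ
  rcases Nat.eq_zero_or_pos ℓ with hl0 | hl0
  · have : (A.next s u).len = 0 := by
      show s * n * A.len = 0
      rw [← hℓ, hl0, mul_zero]
    rw [this]; simp
  obtain ⟨y', hy'⟩ : ∃ y' : Fin n → A.G, y' = fun i => y i + t • (u a i • A.rho (a.succAbove i)) :=
    ⟨_, rfl⟩
  have hx : (A.next s u).enc a y = (List.range (s * n)).flatMap (A.blk a y) := rfl
  have hx' : (A.next s u).enc a (y + t • (A.next s u).rho a) =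
      (List.range (s * n)).flatMap (A.blk a y') := by rw [hy']; rfl
  rw [hx, hx']
  set x' := (List.range (s * n)).flatMap (A.blk a y') with hx'def
  obtain ⟨pc, hpc, hsum⟩ := ed_split_flatMap (s * n) (Nat.mul_pos hs (by omega)) (A.blk a y) x'
  have hblk : ∀ b < s * n, (x'.drop (b * ℓ)).take ℓ = A.blk a y' b := fun b hb =>
    low_flatMap_const (s * n) ℓ (A.blk a y') (fun b => A.blk_len a y' b) b hb
  have hXlen : x'.length = s * n * ℓ := by
    rw [hx'def, low_flatMap_length, Finset.sum_congr rfl (fun k _ => A.blk_len a y' k),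
      Finset.sum_const, Finset.card_range, smul_eq_mul]
  have hlab : ∀ (p : ℕ) (hp : p < x'.length), ((x'[p]).1 : ℕ) = (p / ℓ) % n := by
    intro p hp
    have hb : p / ℓ < s * n := Nat.div_lt_of_lt_mul (by rw [Nat.mul_comm, ← hXlen]; exact hp)
    have hdm := Nat.div_add_mod p ℓ
    have hmod := Nat.mod_lt p hl0
    have hcomm : ℓ * (p / ℓ) = (p / ℓ) * ℓ := Nat.mul_comm _ _
    apply low_blk_label A a y' (p / ℓ)
    rw [← hblk _ hb, List.mem_iff_getElem]
    refine ⟨p % ℓ, ?_, ?_⟩
    · rw [List.length_take, List.length_drop]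
      omega
    · rw [List.getElem_take, List.getElem_drop]
      congr 1
      omega
  set W : ℕ → ℕ := fun b => ∑ k ∈ Finset.range b, (pc k).length with hW
  have hWmono : Monotone W := fun b1 b2 h => Finset.sum_le_sum_of_subset (Finset.range_mono h)
  classical
  set C := (Finset.range (s * n)).filter
    (fun b => 5 * (editDist (A.blk a y b) (pc b) : ℝ) < c * ℓ) with hCdef
  have hCmem : ∀ b, b ∈ C ↔ b < s * n ∧ 5 * (editDist (A.blk a y b) (pc b) : ℝ) < c * ℓ := by
    intro b
    rw [hCdef, Finset.mem_filter, Finset.mem_range]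
  have hex : ∀ b, b ∈ C → ∃ b', b' < s * n ∧ b' % n = b % n ∧
      (∃ p₀, p₀ / ℓ = b' ∧ W b ≤ p₀ ∧ p₀ < W b + (pc b).length) ∧
      editDist (A.blk a y b) (A.blk a y' b') ≤ 5 * editDist (A.blk a y b) (pc b) := by
    intro b hb
    rw [hCmem] at hb
    have hlt : 5 * editDist (A.blk a y b) (pc b) < ℓ := by
      have h1 : (c * ℓ : ℝ) ≤ ℓ := by
        have : (0:ℝ) ≤ ℓ := by positivity
        nlinarith
      have h2 := hb.2.trans_le h1
      exact_mod_cast h2
    obtain ⟨b', h1, h2, h3, h4⟩ := locate (fun c : Fin n × A.S => (c.1 : ℕ)) hn2 x' hXlen hlab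
      (A.blk a y b) (pc b) (b % n) (A.blk_len a y b) (low_blk_label A a y b) (W b)
      (by rw [hpc]; exact low_flatMap_take (s * n) pc b hb.1) hlt
    rw [hblk b' h1] at h4
    exact ⟨b', h1, h2, h3, h4⟩
  choose! B' hB1 hB2 hB3 hB4 using hex
  have hcard : C.card ≤ κ * (2 * s) := by
    refine low_count_cheap C (fun b hb => ((hCmem b).1 hb).1) B' hB1 ?_
      (fun i => m (a.succAbove i)) (fun i => hm2 _) ?_ t (m a) ?_ ?_ ?_
    · intro b₁ h1 b₂ h2 hlt
      obtain ⟨p1, hp1, _, hp1'⟩ := hB3 b₁ h1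
      obtain ⟨p2, hp2, hp2', _⟩ := hB3 b₂ h2
      rw [← hp1, ← hp2]
      apply Nat.div_le_div_right
      have h3 : W b₁ + (pc b₁).length = W (b₁ + 1) := by
        rw [hW]; simp only; rw [Finset.sum_range_succ]
      have h4 := hWmono (show b₁ + 1 ≤ b₂ by omega)
      omega
    · intro i j hij
      apply hcop
      intro h
      exact hij (Fin.succAbove_right_injective h)
    · intro b hb
      have h1 := low_blk_compare A u a y t b (B' b) (hB2 b hb)
      rw [← hy'] at h1
      have h2 := h1.trans (hB4 b hb)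
      have h3 := ((hCmem b).1 hb).2
      set i := Fin.ofNat n b with hi
      set τ : ℤ := t * u a i + (((B' b / n : ℕ) : ℤ) - ((b / n : ℕ) : ℤ)) with hτ
      have hn0 : 0 < n := Nat.pos_of_ne_zero (NeZero.ne n)
      have hj : b / n < s := Nat.div_lt_of_lt_mul (by rw [Nat.mul_comm]; exact ((hCmem b).1 hb).1)
      have hj' : B' b / n < s := Nat.div_lt_of_lt_mul (by rw [Nat.mul_comm]; exact hB1 b hb)
      have hτT : |τ| ≤ T := by
        have h4 : |t * (u a i : ℤ)| ≤ (T' : ℤ) * Q := by
          rw [abs_mul]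
          have h5 : |((u a i : ℕ) : ℤ)| ≤ Q := by
            rw [abs_of_nonneg (by positivity)]
            have := (hu' a i).le.trans (hmQ _)
            exact_mod_cast this
          exact mul_le_mul htT h5 (abs_nonneg _) (by positivity)
        have h6 : |((B' b / n : ℕ) : ℤ) - ((b / n : ℕ) : ℤ)| ≤ s := by
          rw [abs_le]
          constructor
          · have : ((b / n : ℕ) : ℤ) < s := by exact_mod_cast hj
            have : (0:ℤ) ≤ ((B' b / n : ℕ) : ℤ) := by positivity
            linarith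
          · have : ((B' b / n : ℕ) : ℤ) < s := by exact_mod_cast hj'
            have : (0:ℤ) ≤ ((b / n : ℕ) : ℤ) := by positivity
            linarith
        have h7 : ((Q * T' + s : ℕ) : ℤ) ≤ T := by exact_mod_cast hT
        push_cast at h7
        have h8 := abs_add_le (t * (u a i : ℤ)) (((B' b / n : ℕ) : ℤ) - ((b / n : ℕ) : ℤ))
        rw [← hτ] at h8
        linarith
      have hdv : (m (a.succAbove i) : ℤ) ∣ τ := by
        by_contra hnd
        have h4 := hlow (a.succAbove i) (y i + (b / n) • A.rho (a.succAbove i)) τ hnd hτT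
        have h5 : (editDist (A.enc (a.succAbove i) (y i + (b / n) • A.rho (a.succAbove i)))
          (A.enc (a.succAbove i) (y i + (b / n) • A.rho (a.succAbove i) +
            τ • A.rho (a.succAbove i))) : ℝ) ≤ 5 * (editDist (A.blk a y b) (pc b) : ℝ) := by
          exact_mod_cast h2
        linarith
      have hcong : (m (a.succAbove i) : ℤ) ∣ (m a : ℤ) * u a i - 1 := by
        have h4 := (Nat.modEq_iff_dvd.1 (hu a i).symm)
        push_cast at h4
        exact h4
      have h4 : t + (m a : ℤ) * (((B' b / n : ℕ) : ℤ) - ((b / n : ℕ) : ℤ)) =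
          (m a : ℤ) * τ - t * ((m a : ℤ) * u a i - 1) := by
        rw [hτ]; ring
      rw [h4]
      exact dvd_sub (Dvd.dvd.mul_left hdv _) (Dvd.dvd.mul_left hcong _)
    · intro z hz
      apply ht
      have : t = (m a : ℤ) * (-z) := by linarith
      rw [this]
      exact dvd_mul_right _ _
    · intro z hz
      have h1 : ((T' + Q * s : ℕ) : ℤ) < 2 ^ κ := by exact_mod_cast hκ
      push_cast at h1
      have h2 := abs_add_le t ((m a : ℤ) * z)
      have h3 : |(m a : ℤ) * z| ≤ Q * s := by
        rw [abs_mul]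
        have h5 : |((m a : ℕ) : ℤ)| ≤ Q := by
          rw [abs_of_nonneg (by positivity)]
          exact_mod_cast hmQ a
        exact mul_le_mul h5 hz.le (abs_nonneg _) (by positivity)
      linarith
  -- conclusion
  have hsum' : (∑ b ∈ Finset.range (s * n), (editDist (A.blk a y b) (pc b) : ℝ)) ≤
      editDist ((List.range (s * n)).flatMap (A.blk a y)) x' := by exact_mod_cast hsum
  have hsplit : ((s * n : ℕ) - (C.card : ℝ)) * (c * ℓ / 5) ≤
      ∑ b ∈ Finset.range (s * n), (editDist (A.blk a y b) (pc b) : ℝ) := by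
    have hCsub : C ⊆ Finset.range (s * n) := Finset.filter_subset _ _
    have h1 : ∑ b ∈ Finset.range (s * n) \ C, (editDist (A.blk a y b) (pc b) : ℝ) ≤
        ∑ b ∈ Finset.range (s * n), (editDist (A.blk a y b) (pc b) : ℝ) :=
      Finset.sum_le_sum_of_subset_of_nonneg Finset.sdiff_subset (fun _ _ _ => by positivity)
    have h2 : ∑ b ∈ Finset.range (s * n) \ C, (c * ℓ / 5) ≤
        ∑ b ∈ Finset.range (s * n) \ C, (editDist (A.blk a y b) (pc b) : ℝ) := by
      apply Finset.sum_le_sum
      intro b hb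
      rw [Finset.mem_sdiff, hCmem, Finset.mem_range] at hb
      have h3 : ¬ 5 * (editDist (A.blk a y b) (pc b) : ℝ) < c * ℓ := fun h => hb.2 ⟨hb.1, h⟩
      linarith
    rw [Finset.sum_const, nsmul_eq_mul, Finset.card_sdiff_of_subset hCsub, Finset.card_range,
      Nat.cast_sub (by simpa using Finset.card_le_card hCsub)] at h2
    exact h2.trans h1
  have hcard' : (C.card : ℝ) ≤ (s * n : ℕ) / 2 := by
    have h1 : 2 * C.card ≤ s * n := by
      calc 2 * C.card ≤ 2 * (κ * (2 * s)) := by omega
        _ = s * (4 * κ) := by ring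
        _ ≤ s * n := Nat.mul_le_mul_left _ hn
    have h2 : (2:ℝ) * C.card ≤ (s * n : ℕ) := by exact_mod_cast h1
    linarith
  have hlen : ((A.next s u).len : ℝ) = (s * n : ℕ) * (ℓ : ℝ) := by
    show ((s * n * A.len : ℕ) : ℝ) = _
    push_cast; ring
  rw [hlen]
  have hcl : 0 ≤ c * ℓ / 5 := by positivity
  calc c / 10 * ((s * n : ℕ) * (ℓ : ℝ)) = ((s * n : ℕ) - ((s * n : ℕ) : ℝ) / 2) * (c * ℓ / 5) := by ring
    _ ≤ ((s * n : ℕ) - (C.card : ℝ)) * (c * ℓ / 5) := by
        apply mul_le_mul_of_nonneg_right _ hcl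
        linarith
    _ ≤ _ := hsplit.trans hsum'

end Crest.Agent.ED
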