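import Mathlib

/-! Row 210 (S0323), chunk M: moduli. -/
set_option autoImplicit false

namespace Crest.Agent.ED

/-- `K² + 1` primes `≤ K⁵` (`Chebyshev.psi_ge`, `Chebyshev.psi_le_primeCounting_mul_log`). -/
theorem exists_moduli : ∃ K₀ : ℕ, ∀ K ≥ K₀, ∃ m : Fin (K ^ 2 + 1) → ℕ, (∀ a, 2 ≤ m a) ∧
    (∀ a, m a ≤ K ^ 5) ∧ Pairwise fun a b => Nat.Coprime (m a) (m b) := by
  refine ⟨4, fun K hK => ?_⟩
  have hKr : (4 : ℝ) ≤ K := by exact_mod_cast hK
  have hcount : K ^ 2 + 1 ≤ Nat.primeCounting (K ^ 5) := by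
    have h1 := Chebyshev.pi_ge (K ^ 5)
    have hlogpos : 0 < Real.log ((K ^ 5 : ℕ) : ℝ) := by
      apply Real.log_pos
      have : 1 < K ^ 5 := Nat.one_lt_pow (by norm_num) (by omega)
      exact_mod_cast this
    have h2 : Real.log ((K ^ 5 : ℕ) : ℝ) ≤ 5 * K := by
      push_cast
      rw [Real.log_pow]
      have := Real.log_le_sub_one_of_pos (show (0 : ℝ) < K by linarith)
      push_cast
      linarith
    have h3 : Real.log (((K ^ 5 : ℕ) : ℝ) + 1) ≤ 5 * K := by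
      have h4 : ((K ^ 5 : ℕ) : ℝ) + 1 ≤ ((K : ℝ) + 1) ^ 5 := by
        push_cast
        nlinarith [pow_pos (show (0 : ℝ) < K by linarith) 1, pow_pos (show (0 : ℝ) < K by linarith) 2,
          pow_pos (show (0 : ℝ) < K by linarith) 3, pow_pos (show (0 : ℝ) < K by linarith) 4]
      calc Real.log (((K ^ 5 : ℕ) : ℝ) + 1) ≤ Real.log (((K : ℝ) + 1) ^ 5) :=
            Real.log_le_log (by positivity) h4
        _ = 5 * Real.log ((K : ℝ) + 1) := by rw [Real.log_pow]; norm_num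
        _ ≤ 5 * K := by
            have := Real.log_le_sub_one_of_pos (show (0 : ℝ) < (K : ℝ) + 1 by linarith)
            linarith
    have h5 : (1 / 2 : ℝ) ≤ Real.log 2 := by
      have := Real.log_two_gt_d9
      linarith
    have h6 : ((K : ℝ) ^ 2 + 1) ≤
        (((K ^ 5 : ℕ) : ℝ) * Real.log 2 - Real.log (((K ^ 5 : ℕ) : ℝ) + 1)) /
          Real.log ((K ^ 5 : ℕ) : ℝ) := by
      rw [le_div_iff₀ hlogpos]
      have h7 : ((K : ℝ) ^ 2 + 1) * Real.log ((K ^ 5 : ℕ) : ℝ) ≤ ((K : ℝ) ^ 2 + 1) * (5 * K) :=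
        mul_le_mul_of_nonneg_left h2 (by positivity)
      have h8 : ((K ^ 5 : ℕ) : ℝ) * (1 / 2) ≤ ((K ^ 5 : ℕ) : ℝ) * Real.log 2 :=
        mul_le_mul_of_nonneg_left h5 (by positivity)
      have h9 : ((K : ℝ) ^ 2 + 1) * (5 * K) + 5 * K ≤ ((K ^ 5 : ℕ) : ℝ) * (1 / 2) := by
        push_cast
        have h10 : (16 : ℝ) ≤ (K : ℝ) ^ 2 := by nlinarith
        have h11 : (16 : ℝ) * K ^ 3 ≤ K ^ 5 := by
          have : (K : ℝ) ^ 5 = K ^ 2 * K ^ 3 := by ring
          rw [this]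
          exact mul_le_mul_of_nonneg_right h10 (by positivity)
        have h12 : (16 : ℝ) * K ≤ K ^ 3 := by
          have : (K : ℝ) ^ 3 = K ^ 2 * K := by ring
          rw [this]
          exact mul_le_mul_of_nonneg_right h10 (by positivity)
        nlinarith
      linarith
    have h7 : ((K : ℝ) ^ 2 + 1) ≤ (Nat.primeCounting (K ^ 5) : ℝ) := h6.trans h1
    exact_mod_cast h7
  refine ⟨fun a => Nat.nth Nat.Prime a, fun a => (Nat.prime_nth_prime a).two_le, fun a => ?_, ?_⟩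
  · have : Nat.nth Nat.Prime a < K ^ 5 + 1 := by
      apply Nat.nth_lt_of_lt_count
      have h := a.isLt
      have h2 : Nat.count Nat.Prime (K ^ 5 + 1) = Nat.primeCounting (K ^ 5) := rfl
      omega
    exact Nat.lt_succ_iff.mp this
  · intro a b hab
    rw [Nat.coprime_primes (Nat.prime_nth_prime a) (Nat.prime_nth_prime b)]
    intro h
    exact hab (Fin.ext (Nat.nth_injective Nat.infinite_setOfPred_prime h))

/-- inverses -/
theorem exists_inverses {n : ℕ} (m : Fin (n + 1) → ℕ) (hm2 : ∀ a, 2 ≤ m a)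
    (hcop : Pairwise fun a b => Nat.Coprime (m a) (m b)) :
    ∃ u : Fin (n + 1) → Fin n → ℕ, (∀ a i, m a * u a i ≡ 1 [MOD m (a.succAbove i)]) ∧
      ∀ a i, u a i < m (a.succAbove i) := by
  refine ⟨fun a i => ((m a : ZMod (m (a.succAbove i)))⁻¹).val, fun a i => ?_, fun a i => ?_⟩
  · have : NeZero (m (a.succAbove i)) := ⟨by have := hm2 (a.succAbove i); omega⟩
    rw [← ZMod.natCast_eq_natCast_iff]
    push_cast
    rw [ZMod.natCast_zmod_val]
    exact ZMod.coe_mul_inv_eq_one _ (hcop (Fin.succAbove_ne a i).symm)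
  · have : NeZero (m (a.succAbove i)) := ⟨by have := hm2 (a.succAbove i); omega⟩
    exact ZMod.val_lt _

end Crest.Agent.ED
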