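import Mathlib
import Crest.Agent.ED.Defs

/-! Row 210 (S0323), chunk N: `ℓ¹` metrics give negative type functions. -/
set_option autoImplicit false
set_option linter.all false

namespace Crest.Agent.ED

open MeasureTheory

theorem abs_eq_integral (a b : ℝ) :
    |a - b| = ∫ u : ℝ, (Set.Ico (min a b) (max a b)).indicator (fun _ => (1 : ℝ)) u := by
  rw [integral_indicator measurableSet_Ico]
  simp only [integral_const, smul_eq_mul, mul_one, Measure.real, Measure.restrict_apply_univ,
    Real.volume_Ico]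
  rw [ENNReal.toReal_ofReal (sub_nonneg.2 min_le_max), max_sub_min_eq_abs, abs_sub_comm]

theorem indicator_eq (a b u : ℝ) :
    (Set.Ico (min a b) (max a b)).indicator (fun _ => (1 : ℝ)) u =
      ((if u < a then (1 : ℝ) else 0) - (if u < b then 1 else 0)) ^ 2 := by
  by_cases ha : u < a <;> by_cases hb : u < b
  · have : u ∉ Set.Ico (min a b) (max a b) := by
      rintro ⟨h1, _⟩
      exact absurd h1 (not_le.2 (lt_min ha hb))
    rw [Set.indicator_of_notMem this]; simp [ha, hb]
  · have : u ∈ Set.Ico (min a b) (max a b) :=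
      ⟨min_le_of_right_le (not_lt.1 hb), lt_max_of_lt_left ha⟩
    rw [Set.indicator_of_mem this]; simp [ha, hb]
  · have : u ∈ Set.Ico (min a b) (max a b) :=
      ⟨min_le_of_left_le (not_lt.1 ha), lt_max_of_lt_right hb⟩
    rw [Set.indicator_of_mem this]; simp [ha, hb]
  · have : u ∉ Set.Ico (min a b) (max a b) := by
      rintro ⟨_, h1⟩
      exact absurd h1 (not_lt.2 (max_le (not_lt.1 ha) (not_lt.1 hb)))
    rw [Set.indicator_of_notMem this]; simp [ha, hb]

theorem sq_neg_type {ι : Type} [Fintype ι] (p : ι → ℝ) (c : ι → ℝ) (hc : ∑ x, c x = 0) :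
    ∑ x, ∑ y, (p x - p y) ^ 2 * (c x * c y) ≤ 0 := by
  have h1 : ∑ x, ∑ y, (p x - p y) ^ 2 * (c x * c y) =
      (∑ x, p x ^ 2 * c x) * (∑ y, c y) + (∑ x, c x) * (∑ y, p y ^ 2 * c y) -
        2 * ((∑ x, p x * c x) * (∑ y, p y * c y)) := by
    rw [Finset.sum_mul_sum, Finset.sum_mul_sum, Finset.sum_mul_sum, Finset.mul_sum,
      ← Finset.sum_add_distrib, ← Finset.sum_sub_distrib]
    refine Finset.sum_congr rfl fun x _ => ?_
    rw [Finset.mul_sum, ← Finset.sum_add_distrib, ← Finset.sum_sub_distrib]
    refine Finset.sum_congr rfl fun y _ => ?_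
    ring
  rw [h1, hc]
  nlinarith [mul_self_nonneg (∑ x, p x * c x)]

theorem abs_neg_type {ι : Type} [Fintype ι] (h : ι → ℝ) (c : ι → ℝ) (hc : ∑ x, c x = 0) :
    ∑ x, ∑ y, |h x - h y| * (c x * c y) ≤ 0 := by
  have hint : ∀ a b : ℝ, Integrable
      (fun u : ℝ => (Set.Ico (min a b) (max a b)).indicator (fun _ => (1 : ℝ)) u) := by
    intro a b
    rw [integrable_indicator_iff measurableSet_Ico]
    exact integrableOn_const (by simp) (by simp)
  have h1 : ∑ x, ∑ y, |h x - h y| * (c x * c y) =
      ∫ u : ℝ, ∑ x, ∑ y, (Set.Ico (min (h x) (h y)) (max (h x) (h y))).indicator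
        (fun _ => (1 : ℝ)) u * (c x * c y) := by
    rw [integral_finset_sum]
    · refine Finset.sum_congr rfl fun x _ => ?_
      rw [integral_finset_sum]
      · refine Finset.sum_congr rfl fun y _ => ?_
        rw [integral_mul_const, ← abs_eq_integral]
      · intro y _
        exact (hint _ _).mul_const _
    · intro x _
      exact integrable_finset_sum _ fun y _ => (hint _ _).mul_const _
  rw [h1]
  apply integral_nonpos
  intro u
  simp only [indicator_eq]
  exact sq_neg_type (fun x => if u < h x then (1 : ℝ) else 0) c hc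

theorem l1_hasSum (v : lp (fun _ : ℕ => ℝ) 1) : HasSum (fun k => |v k|) ‖v‖ := by
  have h1 : Summable fun k => ‖v k‖ := by
    have := (lp.memℓp v).summable (by simp)
    simpa using this
  have h2 : ‖v‖ = ∑' k, ‖v k‖ := by
    rw [lp.norm_eq_tsum_rpow (by simp) v]
    simp
  rw [h2]
  exact h1.hasSum

theorem l1_neg_type {ι : Type} [Fintype ι] (F : ι → lp (fun _ : ℕ => ℝ) 1) (c : ι → ℝ)
    (hc : ∑ x, c x = 0) :
    ∑ x, ∑ y, ‖F x - F y‖ * (c x * c y) ≤ 0 := by
  have h1 : HasSum (fun k => ∑ x, ∑ y, |F x k - F y k| * (c x * c y))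
      (∑ x, ∑ y, ‖F x - F y‖ * (c x * c y)) := by
    apply hasSum_sum
    intro x _
    apply hasSum_sum
    intro y _
    exact (l1_hasSum (F x - F y)).mul_right _
  have h2 := hasSum_le (fun k => abs_neg_type (fun x => F x k) c hc) h1 (hasSum_zero)
  exact h2

theorem negT_l1 {G : Type} [AddCommGroup G] [Fintype G] (F : G → lp (fun _ : ℕ => ℝ) 1) :
    NegT (fun t : G => ∑ y, ‖F (y + t) - F y‖) := by
  classical
  set Δ : G → ℝ := fun t => ∑ y, ‖F (y + t) - F y‖ with hΔ
  have hΔ0 : Δ 0 = 0 := by simp [hΔ]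
  have hΔneg : ∀ t, Δ (-t) = Δ t := by
    intro t
    show ∑ y, ‖F (y + -t) - F y‖ = ∑ y, ‖F (y + t) - F y‖
    rw [← Equiv.sum_comp (Equiv.addRight t)]
    refine Finset.sum_congr rfl fun y _ => ?_
    simp only [Equiv.coe_addRight, add_neg_cancel_right]
    rw [norm_sub_rev]
  have hG : (0 : ℝ) < Fintype.card G := by
    have : 0 < Fintype.card G := Fintype.card_pos
    exact_mod_cast this
  have hsub : ∀ (χ : AddChar G ℂ) (x y : G), (χ (x - y)).re =
      (χ x).re * (χ y).re + (χ x).im * (χ y).im := by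
    intro χ x y
    rw [AddChar.map_sub_eq_div, div_eq_mul_inv, Complex.inv_def, Complex.normSq_eq_norm_sq,
      AddChar.norm_apply]
    simp [Complex.mul_re]
  refine ⟨AddChar G ℂ, inferInstance,
    fun χ => if χ = 0 then 0 else -(∑ t, Δ t * (χ t).re) / (2 * Fintype.card G),
    fun χ g => χ g, ?_, ?_, ?_, ?_⟩
  · intro χ
    by_cases hχ : χ = 0
    · simp [hχ]
    · simp only [hχ, if_false]
      apply div_nonneg _ (by positivity)
      rw [neg_nonneg]
      have hsum0 : ∑ x, χ x = 0 := AddChar.sum_eq_zero_iff_ne_zero.2 hχ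
      have hre : ∑ x, (χ x).re = 0 := by
        have := congrArg Complex.re hsum0
        simpa using this
      have him : ∑ x, (χ x).im = 0 := by
        have := congrArg Complex.im hsum0
        simpa using this
      have h1 := l1_neg_type F (fun x => (χ x).re) hre
      have h2 := l1_neg_type F (fun x => (χ x).im) him
      have h3 : ∑ t, Δ t * (χ t).re = ∑ x, ∑ y, ‖F x - F y‖ * ((χ x).re * (χ y).re) +
          ∑ x, ∑ y, ‖F x - F y‖ * ((χ x).im * (χ y).im) := by
        have h4 : ∑ t, Δ t * (χ t).re = ∑ y, ∑ t, ‖F (y + t) - F y‖ * (χ t).re := by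
          rw [Finset.sum_comm]
          refine Finset.sum_congr rfl fun t _ => ?_
          rw [hΔ, Finset.sum_mul]
        rw [h4]
        have h5 : ∀ y, ∑ t, ‖F (y + t) - F y‖ * (χ t).re =
            ∑ x, ‖F x - F y‖ * (χ (x - y)).re := by
          intro y
          rw [← Equiv.sum_comp (Equiv.addLeft y) (fun x => ‖F x - F y‖ * (χ (x - y)).re)]
          refine Finset.sum_congr rfl fun t _ => ?_
          simp
        rw [Finset.sum_congr rfl fun y _ => h5 y, Finset.sum_comm, ← Finset.sum_add_distrib]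
        refine Finset.sum_congr rfl fun x _ => ?_
        rw [← Finset.sum_add_distrib]
        refine Finset.sum_congr rfl fun y _ => ?_
        rw [hsub]; ring
      rw [h3]
      exact add_nonpos h1 h2
  · intro χ g
    exact AddChar.norm_apply χ g
  · intro χ g h
    exact AddChar.map_add_eq_mul χ g h
  · intro t
    have hnorm : ∀ χ : AddChar G ℂ, ‖1 - χ t‖ ^ 2 = 2 - 2 * (χ t).re := by
      intro χ
      have h1 : ‖1 - χ t‖ ^ 2 = Complex.normSq (1 - χ t) := by
        rw [Complex.normSq_eq_norm_sq]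
      have h2 : Complex.normSq (χ t) = 1 := by
        rw [Complex.normSq_eq_norm_sq, AddChar.norm_apply]; norm_num
      rw [h1, Complex.normSq_apply]
      rw [Complex.normSq_apply] at h2
      simp only [Complex.sub_re, Complex.one_re, Complex.sub_im, Complex.one_im]
      linear_combination h2
    have hterm : ∀ χ : AddChar G ℂ,
        (if χ = 0 then 0 else -(∑ s, Δ s * (χ s).re) / (2 * Fintype.card G)) * ‖1 - χ t‖ ^ 2 =
        ∑ s, Δ s / Fintype.card G * ((χ s).re * (χ t).re - (χ s).re) := by
      intro χ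
      by_cases hχ : χ = 0
      · subst hχ; simp
      · simp only [hχ, if_false]
        rw [hnorm, neg_div, Finset.sum_div, neg_mul, Finset.sum_mul, ← Finset.sum_neg_distrib]
        refine Finset.sum_congr rfl fun s _ => ?_
        field_simp
        ring
    have hsumre : ∀ s : G, ∑ χ : AddChar G ℂ, (χ s).re = if s = 0 then (Fintype.card G : ℝ) else 0 := by
      intro s
      have h1 := AddChar.sum_apply_eq_ite (α := G) s
      have h2 := congrArg Complex.re h1
      rw [Complex.re_sum] at h2
      rw [h2]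
      split_ifs <;> simp
    have hprod : ∀ s : G, ∑ χ : AddChar G ℂ, (χ s).re * (χ t).re =
        ((if s = t then (Fintype.card G : ℝ) else 0) + (if s = -t then (Fintype.card G : ℝ) else 0)) / 2 := by
      intro s
      have h1 : ∀ χ : AddChar G ℂ, (χ s).re * (χ t).re = ((χ (s - t)).re + (χ (s - -t)).re) / 2 := by
        intro χ
        rw [hsub, hsub]
        have h2 : (χ (-t)).re = (χ t).re ∧ (χ (-t)).im = -(χ t).im := by
          rw [AddChar.map_neg_eq_conj]; simp
        rw [h2.1, h2.2]; ring
      rw [Finset.sum_congr rfl fun χ _ => h1 χ, ← Finset.sum_div, Finset.sum_add_distrib, hsumre,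
        hsumre]
      simp only [sub_eq_zero]
    show Δ t = _
    rw [Finset.sum_congr rfl fun χ _ => hterm χ, Finset.sum_comm]
    have h6 : ∀ s : G, ∑ χ : AddChar G ℂ, Δ s / Fintype.card G * ((χ s).re * (χ t).re - (χ s).re) =
        Δ s * (((if s = t then (1 : ℝ) else 0) + (if s = -t then (1 : ℝ) else 0)) / 2 -
          (if s = 0 then 1 else 0)) := by
      intro s
      rw [← Finset.mul_sum, Finset.sum_sub_distrib, hprod, hsumre]
      have : (Fintype.card G : ℝ) ≠ 0 := hG.ne'
      split_ifs <;> field_simp <;> ring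
    rw [Finset.sum_congr rfl fun s _ => h6 s]
    have h7 : ∀ s : G, Δ s * (((if s = t then (1 : ℝ) else 0) + (if s = -t then (1 : ℝ) else 0)) / 2 -
          (if s = 0 then 1 else 0)) = (if s = t then Δ s / 2 else 0) + (if s = -t then Δ s / 2 else 0)
          - (if s = 0 then Δ s else 0) := by
      intro s
      split_ifs <;> ring
    rw [Finset.sum_congr rfl fun s _ => h7 s, Finset.sum_sub_distrib, Finset.sum_add_distrib,
      Finset.sum_ite_eq', Finset.sum_ite_eq', Finset.sum_ite_eq']
    simp only [Finset.mem_univ, if_true, hΔ0, hΔneg]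
    ring

end Crest.Agent.ED
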