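import Mathlib

/-! Row 210 (S0323), chunk X: numerics.  Parameters: `n = K²`, `Q = K⁵`, `s = K^(30K)`, `w = K`,
`r = K²`, `B = 2K²+3`, final length `N = B (s n)^K`. -/
set_option autoImplicit false

namespace Crest.Agent.ED

theorem num_aux_pow : ∃ K₀ : ℕ, ∀ K ≥ K₀, K ^ 37 ≤ 2 ^ (K / 4) := by
  have h := tendsto_pow_const_div_const_pow_of_one_lt 37 (show (1 : ℝ) < 2 by norm_num)
  have h2 : ∀ᶠ q : ℕ in Filter.atTop, ((q : ℝ) ^ 37 / 2 ^ q) < 1 / (2 * 4 ^ 37) :=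
    h.eventually (gt_mem_nhds (by positivity))
  obtain ⟨q₀, hq₀⟩ := Filter.eventually_atTop.mp h2
  refine ⟨4 * q₀, fun K hK => ?_⟩
  have h3 := hq₀ (K / 4 + 1) (by omega)
  rw [div_lt_div_iff₀ (by positivity) (by positivity)] at h3
  have h4 : ((K / 4 + 1 : ℕ) ^ 37 * (2 * 4 ^ 37) : ℕ) < 1 * 2 ^ (K / 4 + 1) := by
    exact_mod_cast h3
  have h5 : K ≤ (K / 4 + 1) * 4 := by omega
  have h6 : K ^ 37 ≤ (K / 4 + 1) ^ 37 * 4 ^ 37 := by
    calc K ^ 37 ≤ ((K / 4 + 1) * 4) ^ 37 := Nat.pow_le_pow_left h5 37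
      _ = _ := by rw [mul_pow]
  have h7 : 2 ^ (K / 4 + 1) = 2 * 2 ^ (K / 4) := by rw [pow_succ]; ring
  rw [h7] at h4
  have h8 : (K / 4 + 1) ^ 37 * (2 * 4 ^ 37) = 2 * ((K / 4 + 1) ^ 37 * 4 ^ 37) := by ring
  rw [h8] at h4
  omega

/-- elementary inequalities for large `K` -/
theorem num_large : ∃ K₀ : ℕ, ∀ K ≥ K₀, 8 ≤ K ∧
    2 * (K ^ (30 * K) * (K ^ 5 + 1) ^ K) < 2 ^ (K ^ 2 / 4) ∧
    (K ^ 2) ^ K * (K ^ 5 + 1) ≤ 2 ^ (K ^ 2) := by
  obtain ⟨K₀, hK₀⟩ := num_aux_pow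
  refine ⟨max K₀ 8, fun K hK => ?_⟩
  have hK8 : 8 ≤ K := le_trans (le_max_right _ _) hK
  have h1 := hK₀ K (le_trans (le_max_left _ _) hK)
  have h2 : K ^ 5 + 1 ≤ K ^ 6 := by
    have : K ^ 6 = K * K ^ 5 := by ring
    have h3 : 1 ≤ K ^ 5 := Nat.one_le_pow _ _ (by omega)
    nlinarith
  have h3 : (K ^ 37) ^ K ≤ 2 ^ (K ^ 2 / 4) := by
    calc (K ^ 37) ^ K ≤ (2 ^ (K / 4)) ^ K := Nat.pow_le_pow_left h1 K
      _ = 2 ^ (K / 4 * K) := by rw [← pow_mul]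
      _ ≤ 2 ^ (K ^ 2 / 4) := by
          apply Nat.pow_le_pow_right (by norm_num)
          rw [Nat.le_div_iff_mul_le (by norm_num)]
          have : K / 4 * 4 ≤ K := Nat.div_mul_le_self K 4
          nlinarith
  refine ⟨hK8, ?_, ?_⟩
  · calc 2 * (K ^ (30 * K) * (K ^ 5 + 1) ^ K) ≤ 2 * (K ^ (30 * K) * (K ^ 6) ^ K) := by
          gcongr
      _ = 2 * K ^ (36 * K) := by rw [← pow_mul, ← pow_add]; congr 2; ring
      _ < K ^ K * K ^ (36 * K) := by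
          apply Nat.mul_lt_mul_of_pos_right
          · calc 2 < K ^ 1 := by rw [pow_one]; omega
              _ ≤ K ^ K := Nat.pow_le_pow_right (by omega) (by omega)
          · positivity
      _ = (K ^ 37) ^ K := by rw [← pow_mul, ← pow_add]; congr 1; ring
      _ ≤ _ := h3
  · calc (K ^ 2) ^ K * (K ^ 5 + 1) ≤ (K ^ 2) ^ K * K ^ 6 := by gcongr
      _ = K ^ (2 * K + 6) := by rw [← pow_mul, ← pow_add]
      _ ≤ K ^ (37 * K) := Nat.pow_le_pow_right (by omega) (by omega)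
      _ = (K ^ 37) ^ K := by rw [← pow_mul]
      _ ≤ 2 ^ (K ^ 2 / 4) := h3
      _ ≤ 2 ^ (K ^ 2) := Nat.pow_le_pow_right (by norm_num) (Nat.div_le_self _ _)

/-- the recursion for the upper bounds. `α 0 = 1`, `α (k+1) = (4/K) α k + ε`,
`ε ≤ 48 · 2^K · K⁴ · K^(-15K)`, so `α K ≤ (4/K)^K + 2 ε ≤ 2 (4/K)^K`. -/
theorem num_alpha {K : ℕ} (hK : 8 ≤ K) (α : ℕ → ℝ) (h0 : α 0 = 1)
    (hα : ∀ k < K, α (k + 1) ≤ (4 / (K : ℝ)) * α k +
      16 * ((K : ℝ) ^ 2) ^ 2 * ((K : ℝ) ^ 5) ^ (2 * K) *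
        ((2 + (2 * (K : ℝ) ^ 5) ^ K) / (K : ℝ) ^ (30 * K))) :
    α K ≤ 2 * (4 / (K : ℝ)) ^ K := by
  have hKr : (8 : ℝ) ≤ K := by exact_mod_cast hK
  have hKpos : (0 : ℝ) < K := by linarith
  set ε : ℝ := 16 * ((K : ℝ) ^ 2) ^ 2 * ((K : ℝ) ^ 5) ^ (2 * K) *
        ((2 + (2 * (K : ℝ) ^ 5) ^ K) / (K : ℝ) ^ (30 * K)) with hε
  have hε0 : 0 ≤ ε := by positivity
  have hq : 4 / (K : ℝ) ≤ 1 / 2 := by
    rw [div_le_div_iff₀ hKpos (by norm_num)]; linarith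
  have hq0 : 0 ≤ 4 / (K : ℝ) := by positivity
  have hrec : ∀ k ≤ K, α k ≤ (4 / (K : ℝ)) ^ k + 2 * ε := by
    intro k
    induction k with
    | zero => intro _; rw [h0]; simp; linarith
    | succ k ih =>
      intro hk
      have h1 := hα k (by omega)
      have h2 := ih (by omega)
      calc α (k + 1) ≤ (4 / (K : ℝ)) * α k + ε := h1
        _ ≤ (4 / (K : ℝ)) * ((4 / (K : ℝ)) ^ k + 2 * ε) + ε := by gcongr
        _ = (4 / (K : ℝ)) ^ (k + 1) + (4 / (K : ℝ)) * (2 * ε) + ε := by rw [pow_succ]; ring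
        _ ≤ (4 / (K : ℝ)) ^ (k + 1) + (1 / 2) * (2 * ε) + ε := by gcongr
        _ = _ := by ring
  have hfin := hrec K le_rfl
  have hε2 : 2 * ε ≤ (4 / (K : ℝ)) ^ K := by
    have h1 : (2 : ℝ) + (2 * (K : ℝ) ^ 5) ^ K ≤ 3 * (2 * (K : ℝ) ^ 5) ^ K := by
      have h2 : (1 : ℝ) ≤ (2 * (K : ℝ) ^ 5) ^ K := by
        apply one_le_pow₀
        have : (1 : ℝ) ≤ (K : ℝ) ^ 5 := one_le_pow₀ (by linarith)
        linarith
      linarith
    have h3 : ε ≤ 16 * ((K : ℝ) ^ 2) ^ 2 * ((K : ℝ) ^ 5) ^ (2 * K) *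
        ((3 * (2 * (K : ℝ) ^ 5) ^ K) / (K : ℝ) ^ (30 * K)) := by
      rw [hε]; gcongr
    have h4 : 16 * ((K : ℝ) ^ 2) ^ 2 * ((K : ℝ) ^ 5) ^ (2 * K) *
        ((3 * (2 * (K : ℝ) ^ 5) ^ K) / (K : ℝ) ^ (30 * K)) =
        48 * (K : ℝ) ^ 4 * 2 ^ K / (K : ℝ) ^ (15 * K) := by
      have e1 : ((K : ℝ) ^ 5) ^ (2 * K) = (K : ℝ) ^ (10 * K) := by rw [← pow_mul]; congr 1; ring
      have e2 : (2 * (K : ℝ) ^ 5) ^ K = 2 ^ K * (K : ℝ) ^ (5 * K) := by
        rw [mul_pow, ← pow_mul]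
      have e3 : (K : ℝ) ^ (30 * K) = (K : ℝ) ^ (10 * K) * (K : ℝ) ^ (5 * K) * (K : ℝ) ^ (15 * K) := by
        rw [← pow_add, ← pow_add]; congr 1; ring
      rw [e1, e2, e3]
      have p1 : (K : ℝ) ^ (10 * K) ≠ 0 := by positivity
      have p2 : (K : ℝ) ^ (5 * K) ≠ 0 := by positivity
      have p3 : (K : ℝ) ^ (15 * K) ≠ 0 := by positivity
      field_simp
      ring
    have h5 : 2 * (48 * (K : ℝ) ^ 4 * 2 ^ K / (K : ℝ) ^ (15 * K)) ≤ (4 / (K : ℝ)) ^ K := by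
      rw [div_pow, ← mul_div_assoc, div_le_div_iff₀ (by positivity) (by positivity)]
      have e4 : (K : ℝ) ^ (15 * K) = (K : ℝ) ^ K * (K : ℝ) ^ (14 * K) := by
        rw [← pow_add]; congr 1; ring
      have e5 : (4 : ℝ) ^ K = 2 ^ K * 2 ^ K := by rw [← mul_pow]; norm_num
      rw [e4, e5]
      have h6 : (96 : ℝ) * (K : ℝ) ^ 4 ≤ 2 ^ K * (K : ℝ) ^ (14 * K) := by
        have h7 : (96 : ℝ) ≤ (K : ℝ) ^ 4 := by
          calc (96 : ℝ) ≤ 8 ^ 4 := by norm_num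
            _ ≤ (K : ℝ) ^ 4 := by gcongr
        calc (96 : ℝ) * (K : ℝ) ^ 4 ≤ (K : ℝ) ^ 4 * (K : ℝ) ^ 4 := by gcongr
          _ = (K : ℝ) ^ 8 := by rw [← pow_add]
          _ ≤ (K : ℝ) ^ (14 * K) := by
              apply pow_le_pow_right₀ (by linarith)
              omega
          _ ≤ 2 ^ K * (K : ℝ) ^ (14 * K) := by
              have : (1 : ℝ) ≤ 2 ^ K := one_le_pow₀ (by norm_num)
              have h8 : (0 : ℝ) ≤ (K : ℝ) ^ (14 * K) := by positivity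
              nlinarith
      calc 2 * (48 * (K : ℝ) ^ 4 * 2 ^ K) * (K : ℝ) ^ K
          = (96 * (K : ℝ) ^ 4) * (2 ^ K * (K : ℝ) ^ K) := by ring
        _ ≤ (2 ^ K * (K : ℝ) ^ (14 * K)) * (2 ^ K * (K : ℝ) ^ K) := by gcongr
        _ = _ := by ring
    calc 2 * ε ≤ 2 * (48 * (K : ℝ) ^ 4 * 2 ^ K / (K : ℝ) ^ (15 * K)) := by
          rw [← h4]; linarith
      _ ≤ _ := h5
  linarith


/-- eventual inequalities for the final estimate -/
theorem num_aux_final : ∃ K₁ : ℕ, ∀ K ≥ K₁, 1000000 ≤ K ∧ (10 : ℝ) ≤ Real.log K := by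
  have h : ∀ᶠ K : ℕ in Filter.atTop, (10 : ℝ) ≤ Real.log K :=
    (Real.tendsto_log_atTop.comp tendsto_natCast_atTop_atTop).eventually
      (Filter.eventually_ge_atTop 10)
  obtain ⟨K₁, hK₁⟩ := Filter.eventually_atTop.mp h
  exact ⟨max K₁ 1000000, fun K hK => ⟨le_trans (le_max_right _ _) hK,
    hK₁ K (le_trans (le_max_left _ _) hK)⟩⟩

/-- poly(K) ≤ e^K -/
theorem num_aux_poly {K : ℕ} (hK : 1000000 ≤ K) :
    2 * ((2 * (K : ℝ) ^ 2 + 3) * (2 * (2 * (K : ℝ) ^ 2 + 3) + 1)) ≤ Real.exp K := by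
  have hKr : (1000000 : ℝ) ≤ K := by exact_mod_cast hK
  have h1 := Real.pow_div_factorial_le_exp (K : ℝ) (by positivity) 5
  refine le_trans ?_ h1
  have h2 : ((Nat.factorial 5 : ℕ) : ℝ) = 120 := by norm_num [Nat.factorial]
  rw [h2, le_div_iff₀ (by norm_num)]
  have h3 : (1 : ℝ) ≤ K ^ 2 := one_le_pow₀ (by linarith)
  have h4 : 2 * (K : ℝ) ^ 2 + 3 ≤ 5 * K ^ 2 := by nlinarith
  have h5 : 2 * (2 * (K : ℝ) ^ 2 + 3) + 1 ≤ 11 * K ^ 2 := by nlinarith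
  calc 2 * ((2 * (K : ℝ) ^ 2 + 3) * (2 * (2 * (K : ℝ) ^ 2 + 3) + 1)) * 120
      ≤ 2 * ((5 * (K : ℝ) ^ 2) * (11 * (K : ℝ) ^ 2)) * 120 := by gcongr
    _ = 13200 * (K : ℝ) ^ 4 := by ring
    _ ≤ K * (K : ℝ) ^ 4 := by gcongr; linarith
    _ = (K : ℝ) ^ 5 := by ring

/-- the key estimate -/
theorem num_aux_key {K d : ℕ} (hK6 : 1000000 ≤ K) (hlogK : (10 : ℝ) ≤ Real.log K)
    (hdR : (K : ℝ) ≤ d) (hdR2 : Real.log d ≤ (33 * ((K : ℝ) + 1) ^ 2) * Real.log ((K : ℝ) + 1)) :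
    Real.exp (1 / 100 * Real.sqrt (Real.log d * Real.log (Real.log d))) *
      (10 ^ K * (((2 * (K : ℝ) ^ 2 + 3) * (2 * (2 * (K : ℝ) ^ 2 + 3) + 1)) *
        (2 * (4 / (K : ℝ)) ^ K))) ≤ 1 := by
  have hKr : (1000000 : ℝ) ≤ K := by exact_mod_cast hK6
  have hK1 : (0 : ℝ) < K := by linarith
  have hd0 : (0 : ℝ) < d := by linarith
  -- log (K+1) ≤ log K + 1/1000000
  have hlogK1 : Real.log ((K : ℝ) + 1) ≤ Real.log K + 1 / 1000000 := by
    have e : (K : ℝ) + 1 = K * (1 + 1 / K) := by field_simp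
    rw [e, Real.log_mul (by positivity) (by positivity)]
    have h1 : Real.log (1 + 1 / (K : ℝ)) ≤ 1 / K := by
      have := Real.log_le_sub_one_of_pos (show (0 : ℝ) < 1 + 1 / (K : ℝ) by positivity)
      linarith
    have h2 : 1 / (K : ℝ) ≤ 1 / 1000000 := by
      apply one_div_le_one_div_of_le (by norm_num) hKr
    linarith
  have hlogK1' : Real.log ((K : ℝ) + 1) ≤ 1.01 * Real.log K := by linarith
  have hK11 : (K : ℝ) + 1 ≤ 1.01 * K := by linarith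
  have hlogd : Real.log d ≤ 36 * K ^ 2 * Real.log K := by
    calc Real.log d ≤ (33 * ((K : ℝ) + 1) ^ 2) * Real.log ((K : ℝ) + 1) := hdR2
      _ ≤ (33 * (1.01 * (K : ℝ)) ^ 2) * (1.01 * Real.log K) := by
          have h0 : 0 ≤ Real.log ((K : ℝ) + 1) := Real.log_nonneg (by linarith)
          gcongr
      _ = (33 * 1.01 ^ 3) * ((K : ℝ) ^ 2 * Real.log K) := by ring
      _ ≤ 36 * ((K : ℝ) ^ 2 * Real.log K) := by gcongr; norm_num
      _ = _ := by ring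
  have hlogd0 : 1 ≤ Real.log d := by
    calc (1 : ℝ) ≤ Real.log K := by linarith
      _ ≤ Real.log d := Real.log_le_log hK1 hdR
  have hloglogK : Real.log (Real.log K) ≤ Real.log K - 1 :=
    Real.log_le_sub_one_of_pos (by linarith)
  have hloglog : Real.log (Real.log d) ≤ 4 * Real.log K := by
    calc Real.log (Real.log d) ≤ Real.log (36 * K ^ 2 * Real.log K) :=
          Real.log_le_log (by linarith) hlogd
      _ = Real.log 36 + 2 * Real.log K + Real.log (Real.log K) := by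
          rw [Real.log_mul (by positivity) (by linarith), Real.log_mul (by norm_num) (by positivity),
            Real.log_pow]
          push_cast; ring
      _ ≤ 5 + 2 * Real.log K + (Real.log K - 1) := by
          have : Real.log 36 ≤ 5 := by
            rw [Real.log_le_iff_le_exp (by norm_num)]
            have h2 : Real.exp 5 = Real.exp 1 ^ 5 := by rw [← Real.exp_nat_mul]; norm_num
            have h3 : (2.7 : ℝ) ≤ Real.exp 1 := by
              have := Real.exp_one_gt_d9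
              linarith
            rw [h2]
            calc (36 : ℝ) ≤ 2.7 ^ 5 := by norm_num
              _ ≤ Real.exp 1 ^ 5 := by gcongr
          linarith
      _ ≤ 4 * Real.log K := by linarith
  have hloglog0 : 0 ≤ Real.log (Real.log d) := Real.log_nonneg hlogd0
  have hsqrt : Real.sqrt (Real.log d * Real.log (Real.log d)) ≤ 12 * (K * Real.log K) := by
    rw [Real.sqrt_le_left (by positivity)]
    calc Real.log d * Real.log (Real.log d)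
        ≤ (36 * K ^ 2 * Real.log K) * (4 * Real.log K) := by gcongr
      _ = (12 * (K * Real.log K)) ^ 2 := by ring
  have hexp : Real.exp (1 / 100 * Real.sqrt (Real.log d * Real.log (Real.log d))) ≤
      Real.exp (K * Real.log K / 4) := by
    apply Real.exp_le_exp.mpr
    nlinarith [mul_pos hK1 (show 0 < Real.log K by linarith)]
  have hpoly := num_aux_poly hK6
  -- the rest as exponentials
  have e10 : (10 : ℝ) ^ K * 4 ^ K ≤ Real.exp (4 * K) := by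
    rw [← mul_pow]
    have h2 : Real.exp (4 * K) = (Real.exp 1 ^ 4) ^ K := by
      rw [← Real.exp_nat_mul, ← Real.exp_nat_mul]; congr 1; push_cast; ring
    rw [h2]
    have h3 : (2.7 : ℝ) ≤ Real.exp 1 := by
      have := Real.exp_one_gt_d9
      linarith
    have : (10 * 4 : ℝ) ≤ Real.exp 1 ^ 4 := by
      calc (10 * 4 : ℝ) ≤ 2.7 ^ 4 := by norm_num
        _ ≤ Real.exp 1 ^ 4 := by gcongr
    exact pow_le_pow_left₀ (by norm_num) this K
  have eK : (K : ℝ) ^ K = Real.exp (K * Real.log K) := by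
    rw [Real.exp_nat_mul, Real.exp_log hK1]
  calc Real.exp (1 / 100 * Real.sqrt (Real.log d * Real.log (Real.log d))) *
    (10 ^ K * (((2 * (K : ℝ) ^ 2 + 3) * (2 * (2 * (K : ℝ) ^ 2 + 3) + 1)) *
      (2 * (4 / (K : ℝ)) ^ K)))
      = Real.exp (1 / 100 * Real.sqrt (Real.log d * Real.log (Real.log d))) *
        ((10 ^ K * 4 ^ K) * (2 * ((2 * (K : ℝ) ^ 2 + 3) * (2 * (2 * (K : ℝ) ^ 2 + 3) + 1))) /
          (K : ℝ) ^ K) := by
        rw [div_pow]; ring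
    _ ≤ Real.exp (K * Real.log K / 4) * ((Real.exp (4 * K)) * (Real.exp K) /
          (K : ℝ) ^ K) := by
        gcongr
    _ = Real.exp (K * Real.log K / 4) * ((Real.exp (4 * K)) * (Real.exp K) /
          Real.exp (K * Real.log K)) := by rw [eK]
    _ = Real.exp (K * Real.log K / 4 + (4 * K + K) - K * Real.log K) := by
        rw [Real.exp_sub, Real.exp_add, Real.exp_add]; ring
    _ ≤ Real.exp 0 := by
        apply Real.exp_le_exp.mpr
        nlinarith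
    _ = 1 := Real.exp_zero

theorem num_aux_exists (K₀ : ℕ) {d : ℕ} (hd : K₀ ^ (33 * K₀ ^ 2) ≤ d) :
    ∃ K ≥ K₀, K ^ (33 * K ^ 2) ≤ d ∧ d < (K + 1) ^ (33 * (K + 1) ^ 2) := by
  have hbdd : ∀ K : ℕ, K ^ (33 * K ^ 2) ≤ d → K ≤ d + 1 := by
    intro K h
    by_contra hlt
    push Not at hlt
    have h1 : K ^ 1 ≤ K ^ (33 * K ^ 2) := by
      apply Nat.pow_le_pow_right (by omega)
      have : 1 ≤ K ^ 2 := Nat.one_le_pow _ _ (by omega)
      omega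
    rw [pow_one] at h1
    omega
  refine ⟨Nat.findGreatest (fun K => K ^ (33 * K ^ 2) ≤ d) (d + 1),
    Nat.le_findGreatest (hbdd _ hd) hd,
    Nat.findGreatest_spec (P := fun K => K ^ (33 * K ^ 2) ≤ d) (hbdd _ hd) hd, ?_⟩
  by_contra hle
  rw [not_lt] at hle
  have := Nat.le_findGreatest (P := fun K => K ^ (33 * K ^ 2) ≤ d) (hbdd _ hle) hle
  exact absurd this (Nat.not_succ_le_self _)

theorem num_aux_len {K : ℕ} (hK6 : 1000000 ≤ K) :
    (2 * K ^ 2 + 3) * (K ^ (30 * K) * K ^ 2) ^ K ≤ K ^ (33 * K ^ 2) := by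
  have h0 : 2 * K ^ 2 + 3 ≤ K ^ 3 := by
    have : K ^ 3 = K * K ^ 2 := by ring
    have h1 : 1 ≤ K ^ 2 := Nat.one_le_pow _ _ (by omega)
    nlinarith
  have h1 : (K ^ (30 * K) * K ^ 2) ^ K = K ^ ((30 * K + 2) * K) := by
    rw [← pow_add, ← pow_mul]
  have h2 : K ^ 3 * K ^ ((30 * K + 2) * K) = K ^ (3 + (30 * K + 2) * K) := by
    rw [← pow_add]
  have h3 : 3 + (30 * K + 2) * K ≤ 33 * K ^ 2 := by nlinarith
  have h4 : K ^ (3 + (30 * K + 2) * K) ≤ K ^ (33 * K ^ 2) :=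
    Nat.pow_le_pow_right (by omega) h3
  rw [h1]
  exact (Nat.mul_le_mul_right _ h0).trans (h2.le.trans h4)

/-- choice of `K` for given `d` (maximal with `K^(33K²) ≤ d`) and the final estimate, e.g. `c = 1/80`:
`log d ≤ 33 (K+1)² log (K+1)`, `log log d ≤ 4 log K`. -/
theorem num_final : ∃ c : ℝ, 0 < c ∧ ∀ K₀ : ℕ, ∃ d₀ : ℕ, ∀ d ≥ d₀, ∃ K ≥ K₀,
    (2 * K ^ 2 + 3) * (K ^ (30 * K) * K ^ 2) ^ K ≤ d ∧
    Real.exp (c * Real.sqrt (Real.log d * Real.log (Real.log d))) *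
      (10 ^ K * (((2 * (K : ℝ) ^ 2 + 3) * (2 * (2 * (K : ℝ) ^ 2 + 3) + 1)) *
        (2 * (4 / (K : ℝ)) ^ K))) ≤ 1 := by
  refine ⟨1 / 100, by norm_num, fun K₀ => ?_⟩
  obtain ⟨K₁, hK₁⟩ := num_aux_final
  have hM6 : 1000000 ≤ max K₀ K₁ := (hK₁ _ (le_max_right _ _)).1
  refine ⟨(max K₀ K₁) ^ (33 * (max K₀ K₁) ^ 2), fun d hd => ?_⟩
  obtain ⟨K, hMK, hKspec, hKmax⟩ := num_aux_exists (max K₀ K₁) hd
  obtain ⟨hK6, hlogK⟩ := hK₁ K (le_trans (le_max_right _ _) hMK)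
  refine ⟨K, le_trans (le_max_left _ _) hMK, (num_aux_len hK6).trans hKspec, ?_⟩
  have h1 : K ≤ d := by
    refine le_trans ?_ hKspec
    calc K = K ^ 1 := (pow_one K).symm
      _ ≤ K ^ (33 * K ^ 2) := by
        apply Nat.pow_le_pow_right (by omega)
        have : 1 ≤ K ^ 2 := Nat.one_le_pow _ _ (by omega)
        omega
  apply num_aux_key hK6 hlogK (by exact_mod_cast h1)
  have hd0 : (0 : ℝ) < d := by
    have : 0 < d := by omega
    exact_mod_cast this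
  have h2 : (d : ℝ) ≤ ((K : ℝ) + 1) ^ (33 * (K + 1) ^ 2) := by
    have : ((d : ℕ) : ℝ) ≤ (((K + 1) ^ (33 * (K + 1) ^ 2) : ℕ) : ℝ) := Nat.cast_le.mpr hKmax.le
    rw [Nat.cast_pow, Nat.cast_add, Nat.cast_one] at this
    exact this
  have h3 := Real.log_le_log hd0 h2
  rw [Real.log_pow] at h3
  refine h3.trans (le_of_eq ?_)
  push_cast
  ring

end Crest.Agent.ED
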