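import Mathlib
import Crest.Agent.ED.Edit
import Crest.Agent.ED.Defs

/-! Row 210 (S0323), chunk P: costs of translations. -/
set_option autoImplicit false

open Crest.GeometryTopology.EditDistance

namespace Crest.Agent.ED

variable {n : ℕ} [NeZero n]

theorem ofNat_add_mul (s b : ℕ) : Fin.ofNat n (s * n + b) = Fin.ofNat n b := by
  apply Fin.ext
  simp [Fin.ofNat, Nat.add_mod]

theorem ofNat_add_self (b : ℕ) : Fin.ofNat n (b + n) = Fin.ofNat n b := by
  apply Fin.ext
  simp [Fin.ofNat]

/-- shifting by `n` blocks -/
theorem blk_shift (A : Sys n) (a : Fin (n + 1)) (y : Fin n → A.G) (b : ℕ) :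
    A.blk a (y + fun i => A.rho (a.succAbove i)) b = A.blk a y (b + n) := by
  have hn : 0 < n := Nat.pos_of_ne_zero (NeZero.ne n)
  unfold Sys.blk
  rw [ofNat_add_self, Nat.add_div_right b hn, Pi.add_apply, succ_nsmul]
  congr 2
  abel

theorem flatMap_range_add {α : Type} (p q : ℕ) (f : ℕ → List α) :
    (List.range (p + q)).flatMap f =
      (List.range p).flatMap f ++ (List.range q).flatMap (fun b => f (p + b)) := by
  rw [List.range_add, List.flatMap_append, List.flatMap_map]

/-- Adding `g = (rho (a.succAbove i))_i` shifts the block sequence by `n` blocks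
(`blk a (y + g) b = blk a y (b + n)`), so costs at most `2 n` blocks. -/
theorem ed_shift (A : Sys n) (a : Fin (n + 1)) (s : ℕ) (hs : 0 < s)
    (u : Fin (n + 1) → Fin n → ℕ) (y : Fin n → A.G) :
    editDist ((A.next s u).enc a y) ((A.next s u).enc a (y + fun i => A.rho (a.succAbove i))) ≤
      2 * (n * A.len) := by
  obtain ⟨s', rfl⟩ : ∃ s', s = s' + 1 := ⟨s - 1, by omega⟩
  change editDist ((List.range ((s' + 1) * n)).flatMap (A.blk a y))
    ((List.range ((s' + 1) * n)).flatMap (A.blk a (y + fun i => A.rho (a.succAbove i)))) ≤ _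
  have h1 : (List.range ((s' + 1) * n)).flatMap (A.blk a y) =
      (List.range n).flatMap (A.blk a y) ++
        (List.range (s' * n)).flatMap (fun b => A.blk a y (n + b)) := by
    rw [← flatMap_range_add]
    congr 2
    ring
  have h2 : (List.range ((s' + 1) * n)).flatMap (A.blk a (y + fun i => A.rho (a.succAbove i))) =
      (List.range (s' * n)).flatMap (fun b => A.blk a y (n + b)) ++
        (List.range n).flatMap (fun b => A.blk a y (s' * n + b + n)) := by
    have e : (s' + 1) * n = s' * n + n := by ring
    rw [e, flatMap_range_add]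
    congr 1
    · congr 1
      funext b
      rw [blk_shift, add_comm b n]
    · congr 1
      funext b
      rw [blk_shift]
  have h3 : ∀ f : ℕ → List (Fin n × A.S), (∀ b, (f b).length = A.len) →
      ((List.range n).flatMap f).length = n * A.len := by
    intro f hf
    rw [List.length_flatMap]
    simp [hf]
  set P := (List.range n).flatMap (A.blk a y) with hP
  set M := (List.range (s' * n)).flatMap (fun b => A.blk a y (n + b)) with hM
  set Z := (List.range n).flatMap (fun b => A.blk a y (s' * n + b + n)) with hZ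
  rw [h1, h2]
  have hPl : P.length = n * A.len := h3 _ (A.blk_len a y)
  have hZl : Z.length = n * A.len := h3 _ (fun b => A.blk_len a y _)
  have e1 : editDist (P ++ M) M ≤ n * A.len := by
    have := ed_append P M [] M
    rw [List.nil_append, ed_self, add_zero] at this
    exact this.trans ((ed_nil P).trans hPl.le)
  have e2 : editDist M (M ++ Z) ≤ n * A.len := by
    have := ed_append M [] M Z
    rw [List.append_nil, ed_self, zero_add, ed_comm [] Z] at this
    exact this.trans ((ed_nil Z).trans hZl.le)
  have := ed_triangle (P ++ M) M (M ++ Z)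
  omega

theorem sum_ofNat (s : ℕ) (C : Fin n → ℕ) :
    ∑ b ∈ Finset.range (s * n), C (Fin.ofNat n b) = s * ∑ i, C i := by
  induction s with
  | zero => simp
  | succ s ih =>
    have e : (s + 1) * n = s * n + n := by ring
    rw [e, Finset.sum_range_add, ih, add_mul, one_mul]
    congr 1
    rw [Finset.sum_congr rfl fun b _ => by rw [ofNat_add_mul], Finset.sum_range]
    refine Finset.sum_congr rfl fun i _ => ?_
    congr 1
    apply Fin.ext
    simp [Fin.ofNat, Nat.mod_eq_of_lt i.2]

/-- A translation is done blockwise: `s` blocks for each coordinate. -/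
theorem ed_coord (A : Sys n) (a : Fin (n + 1)) (s : ℕ) (u : Fin (n + 1) → Fin n → ℕ)
    (t : Fin n → A.G) (C : Fin n → ℕ)
    (hC : ∀ i y, editDist (A.enc (a.succAbove i) y) (A.enc (a.succAbove i) (y + t i)) ≤ C i)
    (y : Fin n → A.G) :
    editDist ((A.next s u).enc a y) ((A.next s u).enc a (y + t)) ≤ s * ∑ i, C i := by
  change editDist ((List.range (s * n)).flatMap (A.blk a y))
    ((List.range (s * n)).flatMap (A.blk a (y + t))) ≤ _
  refine (ed_flatMap _ _ _).trans ?_
  rw [← sum_ofNat]
  refine Finset.sum_le_sum fun b _ => ?_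
  unfold Sys.blk
  refine (ed_map _ _ _).trans ?_
  have e : (y + t) (Fin.ofNat n b) + (b / n) • A.rho (a.succAbove (Fin.ofNat n b)) =
      (y (Fin.ofNat n b) + (b / n) • A.rho (a.succAbove (Fin.ofNat n b))) + t (Fin.ofNat n b) := by
    rw [Pi.add_apply]; abel
  rw [e]
  exact hC _ _

/-- `rho' a` has approximate order `m a`: `m a * u a i = 1 + t_i * m (a.succAbove i)`, `t_i ≤ Q`, so
`m a • rho' a = g + (t_i • m (a_i) • rho (a_i))_i`; use `ed_shift`, `ed_coord` and `t_i` times `hper`. -/
theorem per_step (A : Sys n) (m : Fin (n + 1) → ℕ) (hm2 : ∀ a, 2 ≤ m a)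
    {Q : ℕ} (hmQ : ∀ a, m a ≤ Q) (u : Fin (n + 1) → Fin n → ℕ)
    (hu : ∀ a i, m a * u a i ≡ 1 [MOD m (a.succAbove i)])
    (hu' : ∀ a i, u a i < m (a.succAbove i)) {s β : ℕ} (hs : 0 < s) (hper : A.Per m β) :
    (A.next s u).Per m (2 * (n * A.len) + s * (n * (Q * β))) := by
  intro a y₀
  let y : Fin n → A.G := y₀
  change editDist ((A.next s u).enc a y) ((A.next s u).enc a
    ((y + m a • (fun i => u a i • A.rho (a.succAbove i)) : Fin n → A.G))) ≤ _
  have ht : ∀ i, ∃ t, t ≤ Q ∧ m a * u a i = 1 + t * m (a.succAbove i) := by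
    intro i
    have h1 := hu a i
    have h2 := hm2 (a.succAbove i)
    have h3 : 1 ≤ m a * u a i := by
      by_contra h
      have h4 : m a * u a i = 0 := by omega
      rw [h4] at h1
      have := (Nat.ModEq.dvd h1)
      have h5 : (m (a.succAbove i) : ℤ) ∣ 1 := by simpa using this
      have h6 := Int.le_of_dvd one_pos h5
      omega
    obtain ⟨t, ht⟩ := (Nat.modEq_iff_dvd' h3).mp h1.symm
    refine ⟨t, ?_, ?_⟩
    · by_contra hlt
      have h7 : m a * u a i ≤ m a * m (a.succAbove i) := Nat.mul_le_mul_left _ (hu' a i).le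
      have h8 : m (a.succAbove i) * t ≤ m a * u a i := by omega
      have h9 : m (a.succAbove i) * t ≤ m (a.succAbove i) * m a := by
        calc m (a.succAbove i) * t ≤ m a * u a i := h8
          _ ≤ m a * m (a.succAbove i) := h7
          _ = _ := by ring
      have h10 := Nat.le_of_mul_le_mul_left h9 (by omega)
      have := hmQ a
      omega
    · have h11 : m a * u a i = 1 + m (a.succAbove i) * t := by omega
      rw [h11, mul_comm t]
  choose t htQ ht using ht
  have key : (y + m a • (fun i => u a i • A.rho (a.succAbove i)) : Fin n → A.G) =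
      ((y + fun i => A.rho (a.succAbove i)) +
        fun i => t i • (m (a.succAbove i) • A.rho (a.succAbove i)) : Fin n → A.G) := by
    funext i
    simp only [Pi.add_apply, Pi.smul_apply]
    rw [smul_smul, smul_smul, ht i, add_smul, one_smul]
    abel
  have hmul : ∀ (b : Fin (n + 1)) (k : ℕ) (z : A.G),
      editDist (A.enc b z) (A.enc b (z + k • (m b • A.rho b))) ≤ k * β := by
    intro b k
    induction k with
    | zero => intro z; simp [ed_self]
    | succ k ih =>
      intro z
      have e : z + (k + 1) • (m b • A.rho b) = (z + k • (m b • A.rho b)) + m b • A.rho b := by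
        rw [succ_nsmul]; abel
      rw [e]
      have h1 := ed_triangle (A.enc b z) (A.enc b (z + k • (m b • A.rho b)))
        (A.enc b ((z + k • (m b • A.rho b)) + m b • A.rho b))
      have h2 := ih z
      have h3 := hper b (z + k • (m b • A.rho b))
      calc _ ≤ _ := h1
        _ ≤ k * β + β := Nat.add_le_add h2 h3
        _ = (k + 1) * β := by ring
  rw [key]
  refine (ed_triangle _ ((A.next s u).enc a (y + fun i => A.rho (a.succAbove i))) _).trans ?_
  refine Nat.add_le_add (ed_shift A a s hs u y) ?_
  refine (ed_coord A a s u _ (fun _ => Q * β) ?_ _).trans ?_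
  · intro i z
    exact (hmul _ _ _).trans (Nat.mul_le_mul_right _ (htQ i))
  · simp

end Crest.Agent.ED
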