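import Mathlib
import Crest.Agent.ED.Per
import Crest.Agent.ED.Char

/-! Row 210 (S0323), chunk U: the upper bound step. -/
set_option autoImplicit false

open Crest.GeometryTopology.EditDistance

namespace Crest.Agent.ED

variable {n : ℕ} [NeZero n]

omit [NeZero n] in
/-- The restriction of a `NegT` function along an additive map is `NegT`. -/
theorem NegT.comp {G H : Type} [AddCommGroup G] [AddCommGroup H] {Δ : G → ℝ} (h : NegT Δ)
    (f : H →+ G) : NegT (fun t => Δ (f t)) := by
  obtain ⟨I, inst, ν, χ, h0, h1, h2, h3⟩ := h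
  refine ⟨I, inst, ν, fun i g => χ i (f g), h0, fun i g => h1 i _, fun i g g' => ?_,
    fun g => h3 _⟩
  show χ i (f (g + g')) = χ i (f g) * χ i (f g')
  rw [map_add]; exact h2 _ _ _

section Upp_char

variable {G : Type} [AddCommGroup G] (χ : G → ℂ) (h1 : ∀ g, ‖χ g‖ = 1)
  (h2 : ∀ g h, χ (g + h) = χ g * χ h)

include h1 h2

theorem Upp_zero : χ 0 = 1 := by
  have h := h2 0 0
  rw [add_zero] at h
  have hne : χ 0 ≠ 0 := by
    intro h0
    have := h1 0
    rw [h0, norm_zero] at this
    exact zero_ne_one this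
  exact (mul_left_cancel₀ hne (by rw [mul_one]; exact h)).symm

theorem Upp_nsmul (z : ℕ) (g : G) : χ (z • g) = χ g ^ z := by
  induction z with
  | zero => rw [zero_smul, pow_zero]; exact Upp_zero χ h1 h2
  | succ z ih => rw [add_smul, one_smul, h2, ih, pow_succ]

theorem Upp_sum {ι : Type} (s : Finset ι) (g : ι → G) : χ (∑ i ∈ s, g i) = ∏ i ∈ s, χ (g i) := by
  classical
  induction s using Finset.induction_on with
  | empty => rw [Finset.sum_empty, Finset.prod_empty]; exact Upp_zero χ h1 h2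
  | insert a s ha ih => rw [Finset.sum_insert ha, Finset.prod_insert ha, h2, ih]

end Upp_char

omit [NeZero n] in
theorem Upp_pi {G : Type} [AddCommGroup G] (χ : (Fin n → G) → ℂ) (h1 : ∀ g, ‖χ g‖ = 1)
    (h2 : ∀ g h, χ (g + h) = χ g * χ h) (v : Fin n → ℕ) (r : Fin n → G) :
    χ (fun i => v i • r i) = ∏ i, χ (Pi.single i (r i)) ^ v i := by
  have : (fun i => v i • r i) = ∑ i, Pi.single i (v i • r i) := by
    rw [Finset.univ_sum_single]
  rw [this, Upp_sum χ h1 h2]
  refine Finset.prod_congr rfl fun i _ => ?_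
  rw [← Upp_nsmul χ h1 h2, ← Pi.single_smul]

/-- `char_ineq` summed over the characters of a `NegT` function on `Fin n → G`. Here
`χ (z • (u i • r i)_i) = ∏ (χ_i (r i))^(z * u i)`, `χ_i g = χ (Pi.single i g)`. -/
theorem negT_ineq {G : Type} [AddCommGroup G] {Δ : (Fin n → G) → ℝ} (hΔ : NegT Δ)
    (r : Fin n → G) (q : Fin n → ℕ) (hq2 : ∀ i, 2 ≤ q i) {Q : ℕ} (hqQ : ∀ i, q i ≤ Q)
    (hcop : Pairwise fun i j => Nat.Coprime (q i) (q j)) (u : Fin n → ℕ) (hu : ∀ i, u i ≤ Q)
    {w : ℕ} (hw : 2 ≤ w) (z : ℕ) (hz : z ≤ Q) :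
    Δ (z • fun i => u i • r i) ≤
      (4 / w) * ∑ i, (1 / (q i : ℝ)) * ∑ z ∈ Finset.range (q i), Δ (Pi.single i (z • r i)) +
      (16 * (n : ℝ) ^ 2 * (Q : ℝ) ^ (2 * w)) * Δ r +
      (16 * (n : ℝ) ^ 2 * (Q : ℝ) ^ (2 * w)) * ∑ i, Δ (Pi.single i (q i • r i)) := by
  obtain ⟨I, inst, ν, χ, h0, h1, h2, h3⟩ := hΔ
  have hn : 1 ≤ n := Nat.one_le_iff_ne_zero.2 (NeZero.ne n)
  have hQ2 : 2 ≤ Q := (hq2 ⟨0, hn⟩).trans (hqQ ⟨0, hn⟩)
  set K : ℝ := 16 * (n : ℝ) ^ 2 * (Q : ℝ) ^ (2 * w) with hK
  have hpt : ∀ j : I, ‖1 - χ j (z • fun i => u i • r i)‖ ^ 2 ≤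
      (4 / w) * ∑ i, (1 / (q i : ℝ)) * ∑ z ∈ Finset.range (q i),
        ‖1 - χ j (Pi.single i (z • r i))‖ ^ 2 +
      K * ‖1 - χ j r‖ ^ 2 + K * ∑ i, ‖1 - χ j (Pi.single i (q i • r i))‖ ^ 2 := by
    intro j
    have h := char_ineq q hq2 hqQ hcop (fun i => χ j (Pi.single i (r i))) (fun i => h1 j _)
      (fun i => z * u i) (V := Q * Q) (fun i => Nat.mul_le_mul hz (hu i)) (w := w) (by omega)
      (C := K) le_rfl (by
        rw [hK]
        push_cast
        have hn' : (1 : ℝ) ≤ n := by exact_mod_cast hn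
        have hQ' : (1 : ℝ) ≤ Q := by exact_mod_cast (by omega : 1 ≤ Q)
        have e1 : ((Q : ℝ) * Q) ^ 2 ≤ (Q : ℝ) ^ (2 * w) := by
          calc ((Q : ℝ) * Q) ^ 2 = (Q : ℝ) ^ 4 := by ring
            _ ≤ _ := pow_le_pow_right₀ hQ' (by omega)
        have e2 : (n : ℝ) ≤ 16 * (n : ℝ) ^ 2 := by nlinarith
        calc ((Q : ℝ) * Q) ^ 2 * n ≤ (Q : ℝ) ^ (2 * w) * (16 * (n : ℝ) ^ 2) := by gcongr
          _ = _ := by ring)
    have e1 : χ j (z • fun i => u i • r i) = ∏ i, χ j (Pi.single i (r i)) ^ (z * u i) := by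
      rw [← Upp_pi (χ j) (h1 j) (h2 j)]
      congr 1
      ext i
      simp [mul_smul]
    have e2 : χ j r = ∏ i, χ j (Pi.single i (r i)) := by
      have := Upp_pi (χ j) (h1 j) (h2 j) (fun _ => 1) r
      simpa using this
    have e3 : ∀ i (z : ℕ), χ j (Pi.single i (z • r i)) = χ j (Pi.single i (r i)) ^ z := by
      intro i z
      rw [← Upp_nsmul (χ j) (h1 j) (h2 j), ← Pi.single_smul]
    rw [e1, e2]
    simp only [e3]
    exact h
  calc Δ (z • fun i => u i • r i) = ∑ j, ν j * ‖1 - χ j (z • fun i => u i • r i)‖ ^ 2 := h3 _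
    _ ≤ ∑ j, ν j * ((4 / w) * ∑ i, (1 / (q i : ℝ)) * ∑ z ∈ Finset.range (q i),
        ‖1 - χ j (Pi.single i (z • r i))‖ ^ 2 +
      K * ‖1 - χ j r‖ ^ 2 + K * ∑ i, ‖1 - χ j (Pi.single i (q i • r i))‖ ^ 2) :=
        Finset.sum_le_sum fun j _ => mul_le_mul_of_nonneg_left (hpt j) (h0 j)
    _ = _ := by
        simp only [h3, mul_add, Finset.sum_add_distrib, Finset.mul_sum]
        congr 1
        · congr 1
          · rw [Finset.sum_comm]
            refine Finset.sum_congr rfl fun i _ => ?_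
            rw [Finset.sum_comm]
            refine Finset.sum_congr rfl fun z _ => Finset.sum_congr rfl fun j _ => ?_
            ring
          · refine Finset.sum_congr rfl fun j _ => ?_
            ring
        · rw [Finset.sum_comm]
          refine Finset.sum_congr rfl fun i _ => Finset.sum_congr rfl fun j _ => ?_
          ring

/-- The upper bound step: `negT_ineq` with `r i = rho (a.succAbove i)`; `Δ r ≤ L * (2 n len)` by
`ed_shift`; `Δ (single i (q i • r i)) ≤ L * (s β)` by `ed_coord` and `hper`;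
`Δ (single i (z • r i)) ≤ (L s) (α len)` by `hupp` applied to `t ↦ Δ (single i t)`. -/
theorem upp_step (A : Sys n) (hlen : 0 < A.len) (m : Fin (n + 1) → ℕ) (hm2 : ∀ a, 2 ≤ m a)
    {Q : ℕ} (hmQ : ∀ a, m a ≤ Q) (hcop : Pairwise fun a b => Nat.Coprime (m a) (m b))
    (u : Fin (n + 1) → Fin n → ℕ) (hu : ∀ a i, u a i ≤ Q) {s β : ℕ} (hs : 0 < s)
    (hper : A.Per m β) {α : ℝ} (hα : 0 ≤ α) (hupp : A.Upp Q α) {w : ℕ} (hw : 2 ≤ w) :
    (A.next s u).Upp Q ((4 / w) * α +
      16 * (n : ℝ) ^ 2 * (Q : ℝ) ^ (2 * w) * (2 / s + β / A.len)) := by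
  intro a Δ L hneg hL hLip z hz
  have hself : ∀ x : List A.S, editDist x x = 0 := fun x => ed_self x
  have hcoord : ∀ (i : Fin n) (t : A.G) (C : ℕ),
      (∀ y, editDist (A.enc (a.succAbove i) y) (A.enc (a.succAbove i) (y + t)) ≤ C) →
      Δ (Pi.single i t : Fin n → A.G) ≤ L * (s * C) := by
    intro i t C hC
    have h := hLip (Pi.single i t : Fin n → A.G) (s * C) ?_
    · push_cast at h; exact h
    · intro y
      have h1 := ed_coord A a s u (Pi.single i t : Fin n → A.G) (fun j => if j = i then C else 0) ?_ y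
      · rw [Finset.sum_ite_eq' Finset.univ i (fun _ => C), if_pos (Finset.mem_univ _)] at h1
        exact h1
      · intro j y
        by_cases hj : j = i
        · subst hj
          rw [Pi.single_eq_same, if_pos rfl]
          exact hC y
        · rw [Pi.single_eq_of_ne hj, add_zero, hself]
          exact Nat.zero_le _
  have hmain := negT_ineq hneg (fun i => A.rho (a.succAbove i)) (fun i => m (a.succAbove i))
    (fun i => hm2 _) (fun i => hmQ _)
    (fun i j hij => hcop (fun h => hij (Fin.succAbove_right_injective h)))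
    (u a) (fun i => hu a i) hw z hz
  have hrho : (A.next s u).rho a = fun i => u a i • A.rho (a.succAbove i) := rfl
  have hlen' : (((A.next s u).len : ℕ) : ℝ) = s * n * A.len := by
    change ((s * n * A.len : ℕ) : ℝ) = _
    push_cast; ring
  have hr : Δ (fun i => A.rho (a.succAbove i)) ≤ L * (2 * (n * A.len)) := by
    have h := hLip (fun i => A.rho (a.succAbove i)) (2 * (n * A.len)) (fun y => ed_shift A a s hs u y)
    push_cast at h; exact h
  have hq : ∀ i, Δ (Pi.single i (m (a.succAbove i) • A.rho (a.succAbove i)) : Fin n → A.G) ≤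
      L * (s * β) := fun i => hcoord i _ β (fun y => hper (a.succAbove i) y)
  have hzz : ∀ i (z : ℕ), z ≤ Q → Δ (Pi.single i (z • A.rho (a.succAbove i)) : Fin n → A.G) ≤
      L * s * (α * A.len) := by
    intro i z hz
    refine hupp (a.succAbove i) (fun t => Δ (Pi.single i t : Fin n → A.G)) (L * s)
      (NegT.comp hneg (AddMonoidHom.single (fun _ : Fin n => A.G) i)) (by positivity) ?_ z hz
    intro t C hC
    have := hcoord i t C hC
    linarith
  have hlen0 : (0 : ℝ) < A.len := by exact_mod_cast hlen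
  have hs0 : (0 : ℝ) < s := by exact_mod_cast hs
  have hw0 : (0 : ℝ) < w := by
    have : 0 < w := by omega
    exact_mod_cast this
  set K : ℝ := 16 * (n : ℝ) ^ 2 * (Q : ℝ) ^ (2 * w) with hK
  have hK0 : 0 ≤ K := by positivity
  have s1 : ∑ i, (1 / (m (a.succAbove i) : ℝ)) * ∑ z ∈ Finset.range (m (a.succAbove i)),
      Δ (Pi.single i (z • A.rho (a.succAbove i)) : Fin n → A.G) ≤ n * (L * s * (α * A.len)) := by
    calc _ ≤ ∑ _i : Fin n, L * s * (α * A.len) := by
          refine Finset.sum_le_sum fun i _ => ?_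
          have hm0 : (0 : ℝ) < m (a.succAbove i) := by
            have : 0 < m (a.succAbove i) := by have := hm2 (a.succAbove i); omega
            exact_mod_cast this
          have h3 : ∑ z ∈ Finset.range (m (a.succAbove i)),
              Δ (Pi.single i (z • A.rho (a.succAbove i)) : Fin n → A.G) ≤
              m (a.succAbove i) * (L * s * (α * A.len)) := by
            calc _ ≤ ∑ _z ∈ Finset.range (m (a.succAbove i)), L * s * (α * A.len) :=
                  Finset.sum_le_sum fun z hz' => hzz i z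
                    ((Finset.mem_range.1 hz').le.trans (hmQ _))
              _ = _ := by rw [Finset.sum_const, Finset.card_range, nsmul_eq_mul]
          rw [one_div, inv_mul_le_iff₀ hm0]
          exact h3
      _ = _ := by rw [Finset.sum_const, Finset.card_univ, Fintype.card_fin, nsmul_eq_mul]
  have s3 : ∑ i, Δ (Pi.single i (m (a.succAbove i) • A.rho (a.succAbove i)) : Fin n → A.G) ≤
      n * (L * (s * β)) := by
    calc _ ≤ ∑ _i : Fin n, L * (s * β) := Finset.sum_le_sum fun i _ => hq i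
      _ = _ := by rw [Finset.sum_const, Finset.card_univ, Fintype.card_fin, nsmul_eq_mul]
  rw [hrho, hlen']
  refine hmain.trans ?_
  calc _ ≤ (4 / w) * (n * (L * s * (α * A.len))) + K * (L * (2 * (n * A.len))) +
        K * (n * (L * (s * β))) := by gcongr
    _ = L * (((4 / w) * α + K * (2 / s + β / A.len)) * (s * n * A.len)) := by
        field_simp
        ring

end Crest.Agent.ED
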