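import Mathlib
import Crest.Agent.ED.Low
import Crest.Agent.ED.Upp
import Crest.Agent.ED.Neg
import Crest.Agent.ED.Bin
import Crest.Agent.ED.Mod
import Crest.Agent.ED.Num

/-! Row 210 (S0323), chunk F: iteration and assembly. -/
set_option autoImplicit false
set_option linter.all false

open Crest.GeometryTopology.EditDistance

namespace Crest.Agent.ED

variable {n : ℕ} [NeZero n]

theorem ed_single_le {α : Type} (a b : α) : editDist [a] [b] ≤ 1 := by
  have := ed_subst ([] : List α) [] a b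
  simpa using this

/-- base level -/
theorem base_low (m : Fin (n + 1) → ℕ) (hm : ∀ a, 2 ≤ m a) {Q : ℕ} (hmQ : ∀ a, m a ≤ Q) (T : ℕ) :
    (Sys.base m hm Q).Low m 1 T := by
  intro a y t ht _
  have hne : ∀ a, NeZero (m a) := fun a => ⟨by have := hm a; omega⟩
  have h1 : (1 : ℕ) ≤ editDist ((Sys.base m hm Q).enc a y)
      ((Sys.base m hm Q).enc a (y + t • (Sys.base m hm Q).rho a)) := by
    apply ed_pos
    intro h
    apply ht
    let y' : (a : Fin (n + 1)) → ZMod (m a) := y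
    have h2 : (Fin.ofNat (Q + 1) (y' a).val) =
        Fin.ofNat (Q + 1) ((y' + t • (1 : (a : Fin (n + 1)) → ZMod (m a))) a).val := by
      have h3 : [Fin.ofNat (Q + 1) (y' a).val] =
        [Fin.ofNat (Q + 1) ((y' + t • (1 : (a : Fin (n + 1)) → ZMod (m a))) a).val] := h
      exact List.head_eq_of_cons_eq h3
    have h4 := congrArg Fin.val h2
    have hlt : ∀ x : ZMod (m a), x.val < Q + 1 := fun x =>
      lt_of_lt_of_le (ZMod.val_lt x) (by have := hmQ a; omega)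
    simp only [Fin.ofNat_eq_cast, Fin.val_natCast] at h4
    rw [Nat.mod_eq_of_lt (hlt _), Nat.mod_eq_of_lt (hlt _)] at h4
    have h5 := ZMod.val_injective _ h4
    simp only [Pi.add_apply, Pi.smul_apply, Pi.one_apply, zsmul_eq_mul, mul_one] at h5
    have h6 : ((t : ℤ) : ZMod (m a)) = 0 := by
      have := h5.symm
      simpa using this
    exact (ZMod.intCast_zmod_eq_zero_iff_dvd t (m a)).1 h6
  have hl : ((Sys.base m hm Q).len : ℝ) = 1 := by simp [Sys.base]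
  rw [hl]
  have : ((1 : ℕ) : ℝ) ≤ (editDist ((Sys.base m hm Q).enc a y)
      ((Sys.base m hm Q).enc a (y + t • (Sys.base m hm Q).rho a)) : ℝ) := by exact_mod_cast h1
  simpa using this

theorem base_per (m : Fin (n + 1) → ℕ) (hm : ∀ a, 2 ≤ m a) (Q : ℕ) :
    (Sys.base m hm Q).Per m 0 := by
  intro a y
  have h1 : (Sys.base m hm Q).enc a (y + m a • (Sys.base m hm Q).rho a) =
      (Sys.base m hm Q).enc a y := by
    let y' : (a : Fin (n + 1)) → ZMod (m a) := y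
    show [Fin.ofNat (Q + 1) ((y' + m a • (1 : (a : Fin (n + 1)) → ZMod (m a))) a).val] =
      [Fin.ofNat (Q + 1) (y' a).val]
    have : (y' + m a • (1 : (a : Fin (n + 1)) → ZMod (m a))) a = y' a := by
      simp
    rw [this]
  rw [h1, ed_self]

theorem base_upp (m : Fin (n + 1) → ℕ) (hm : ∀ a, 2 ≤ m a) (Q : ℕ) :
    (Sys.base m hm Q).Upp Q 1 := by
  intro a Δ L _ hL h z _
  have h1 := h (z • (Sys.base m hm Q).rho a) 1 (fun y => ed_single_le _ _)
  have hl : ((Sys.base m hm Q).len : ℝ) = 1 := by simp [Sys.base]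
  rw [hl]
  simpa using h1

/-- the `k`-th level -/
def lev (m : Fin (n + 1) → ℕ) (hm : ∀ a, 2 ≤ m a) (Q s : ℕ) (u : Fin (n + 1) → Fin n → ℕ) :
    ℕ → Sys n
  | 0 => Sys.base m hm Q
  | k + 1 => (lev m hm Q s u k).next s u

theorem lev_len (m : Fin (n + 1) → ℕ) (hm : ∀ a, 2 ≤ m a) (Q s : ℕ)
    (u : Fin (n + 1) → Fin n → ℕ) (k : ℕ) : (lev m hm Q s u k).len = (s * n) ^ k := by
  induction k with
  | zero => rfl
  | succ k ih =>
    show s * n * (lev m hm Q s u k).len = _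
    rw [ih, pow_succ]; ring

theorem lev_card (m : Fin (n + 1) → ℕ) (hm : ∀ a, 2 ≤ m a) (Q s : ℕ)
    (u : Fin (n + 1) → Fin n → ℕ) (k : ℕ) :
    Nat.card (lev m hm Q s u k).S = n ^ k * (Q + 1) := by
  induction k with
  | zero => show Nat.card (Fin (Q + 1)) = _; simp
  | succ k ih =>
    show Nat.card (Fin n × (lev m hm Q s u k).S) = _
    rw [Nat.card_prod, ih, Nat.card_fin, pow_succ]; ring

/-- everything about a level gives the distortion bound -/
theorem level_bound (A : Sys n) (m : Fin (n + 1) → ℕ) (hm : ∀ a, 2 ≤ m a) {Q : ℕ} (hQ : 1 ≤ Q)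
    (hlen : 0 < A.len) {c α : ℝ} (hc : 0 < c) {T : ℕ} (hT : 1 ≤ T) (hlow : A.Low m c T)
    (hupp : A.Upp Q α) {r : ℕ} (hr : Nat.card A.S ≤ 2 ^ r)
    (f : List Bool → lp (fun _ : ℕ => ℝ) 1) (s D : ℝ) (hs : 0 < s)
    (hf : ∀ x y : List Bool, x.length = (2 * r + 3) * A.len → y.length = (2 * r + 3) * A.len →
      x ≠ y → s * (editDist x y : ℝ) ≤ ‖f x - f y‖ ∧ ‖f x - f y‖ ≤ D * s * (editDist x y : ℝ)) :
    c ≤ D * (((2 * r + 3) * (2 * (2 * r + 3) + 1)) * α) := by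
  have := Fintype.ofFinite A.G
  obtain ⟨φ, hφlen, hφup, hφlow⟩ := bin_transfer (S := A.S) hr
  set B : ℕ := 2 * r + 3 with hB
  let a : Fin (n + 1) := 0
  -- lower bound for one step
  have hlow1 : ∀ y, c * A.len ≤ (editDist (A.enc a y) (A.enc a (y + A.rho a)) : ℝ) := by
    intro y
    have h1 : ¬ ((m a : ℤ) ∣ 1) := by
      intro h
      have h2 := Int.le_of_dvd one_pos h
      have h3 := hm a
      omega
    have := hlow a y 1 h1 (by simpa using hT)
    simpa using this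
  have hcl : 0 < c * A.len := mul_pos hc (by exact_mod_cast hlen)
  have hbin1 : ∀ y, c * A.len ≤ (2 * B + 1 : ℝ) *
      (editDist (φ (A.enc a y)) (φ (A.enc a (y + A.rho a))) : ℝ) := by
    intro y
    refine (hlow1 y).trans ?_
    have := hφlow (A.enc a y) (A.enc a (y + A.rho a))
    exact_mod_cast this
  have hw : ∀ y, (φ (A.enc a y)).length = B * A.len := by
    intro y; rw [hφlen, A.enc_len]
  -- the lower estimate for f
  have hflow : ∀ y, s * (editDist (φ (A.enc a y)) (φ (A.enc a (y + A.rho a))) : ℝ) ≤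
      ‖f (φ (A.enc a (y + A.rho a))) - f (φ (A.enc a y))‖ := by
    intro y
    by_cases h : φ (A.enc a y) = φ (A.enc a (y + A.rho a))
    · rw [← h, ed_self]; simp
    · rw [norm_sub_rev]
      exact (hf _ _ (hw _) (hw _) h).1
  have hfup : ∀ x y, x.length = B * A.len → y.length = B * A.len → 0 ≤ D →
      ‖f x - f y‖ ≤ D * s * (editDist x y : ℝ) := by
    intro x y hx hy hD
    by_cases h : x = y
    · rw [h, sub_self, norm_zero]
      positivity
    · exact (hf _ _ hx hy h).2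
  have hD : 0 ≤ D := by
    have h1 := hbin1 0
    have hpos : 0 < (editDist (φ (A.enc a 0)) (φ (A.enc a (0 + A.rho a))) : ℝ) := by
      by_contra hneg
      have h2 : (editDist (φ (A.enc a 0)) (φ (A.enc a (0 + A.rho a))) : ℝ) = 0 :=
        le_antisymm (not_lt.1 hneg) (Nat.cast_nonneg _)
      rw [h2, mul_zero] at h1
      linarith
    have hne : φ (A.enc a 0) ≠ φ (A.enc a (0 + A.rho a)) := by
      intro h
      rw [← h, ed_self] at hpos
      simp at hpos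
    have h3 := hf _ _ (hw _) (hw _) hne
    have h4 : 0 < D * s * (editDist (φ (A.enc a 0)) (φ (A.enc a (0 + A.rho a))) : ℝ) :=
      lt_of_lt_of_le (mul_pos hs hpos) (h3.1.trans h3.2)
    by_contra hneg
    have h5 : D * s * (editDist (φ (A.enc a 0)) (φ (A.enc a (0 + A.rho a))) : ℝ) ≤ 0 := by
      have : D * s ≤ 0 := mul_nonpos_of_nonpos_of_nonneg (not_le.1 hneg).le hs.le
      exact mul_nonpos_of_nonpos_of_nonneg this hpos.le
    linarith
  -- the negative type function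
  have hneg := negT_l1 (G := A.G) (fun y => f (φ (A.enc a y)))
  set N : ℝ := (Fintype.card A.G : ℝ) with hN
  have hNpos : 0 < N := by
    rw [hN]
    have : 0 < Fintype.card A.G := Fintype.card_pos
    exact_mod_cast this
  have hΔ := hupp a _ (N * (D * s * B)) hneg (by positivity) (by
    intro t C hC
    have : ∀ y ∈ (Finset.univ : Finset A.G),
        ‖f (φ (A.enc a (y + t))) - f (φ (A.enc a y))‖ ≤ D * s * B * C := by
      intro y _
      refine (hfup _ _ (hw _) (hw _) hD).trans ?_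
      have h1 := hφup (A.enc a (y + t)) (A.enc a y)
      rw [ed_comm (A.enc a (y + t)) (A.enc a y)] at h1
      have h2 : (editDist (φ (A.enc a (y + t))) (φ (A.enc a y)) : ℝ) ≤ B * C := by
        have h3 : editDist (φ (A.enc a (y + t))) (φ (A.enc a y)) ≤ B * C :=
          h1.trans (Nat.mul_le_mul_left _ (hC y))
        exact_mod_cast h3
      calc D * s * (editDist (φ (A.enc a (y + t))) (φ (A.enc a y)) : ℝ)
          ≤ D * s * (B * C) := by
            apply mul_le_mul_of_nonneg_left h2; positivity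
        _ = D * s * B * C := by ring
    refine (Finset.sum_le_sum this).trans ?_
    rw [Finset.sum_const, Finset.card_univ, nsmul_eq_mul, ← hN]
    apply le_of_eq; ring) 1 hQ
  rw [one_smul] at hΔ
  -- lower estimate of the sum
  have hsum : N * (s * (c * A.len / (2 * B + 1 : ℝ))) ≤
      ∑ y, ‖f (φ (A.enc a (y + A.rho a))) - f (φ (A.enc a y))‖ := by
    have : ∀ y ∈ (Finset.univ : Finset A.G), s * (c * A.len / (2 * B + 1 : ℝ)) ≤
        ‖f (φ (A.enc a (y + A.rho a))) - f (φ (A.enc a y))‖ := by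
      intro y _
      refine le_trans ?_ (hflow y)
      apply mul_le_mul_of_nonneg_left _ hs.le
      rw [div_le_iff₀ (by positivity)]
      have := hbin1 y
      linarith
    have h2 := Finset.sum_le_sum this
    rw [Finset.sum_const, Finset.card_univ, nsmul_eq_mul, ← hN] at h2
    exact h2
  have hfin := hsum.trans hΔ
  have hBpos : (0 : ℝ) < 2 * B + 1 := by positivity
  have hlen' : (0 : ℝ) < A.len := by exact_mod_cast hlen
  have h1 : N * (s * (c * A.len / (2 * B + 1 : ℝ))) = (N * s * A.len) * (c / (2 * B + 1)) := by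
    field_simp
  have h2 : N * (D * s * B) * (α * A.len) = (N * s * A.len) * (D * B * α) := by ring
  rw [h1, h2] at hfin
  have h3 : c / (2 * B + 1 : ℝ) ≤ D * B * α := le_of_mul_le_mul_left hfin (by positivity)
  rw [div_le_iff₀ hBpos] at h3
  have hBr : (B : ℝ) = 2 * r + 3 := by rw [hB]; push_cast; ring
  rw [hBr] at h3
  calc c ≤ _ := h3
    _ = _ := by ring

/-- costs -/
def beta (n Q s : ℕ) : ℕ → ℕ
  | 0 => 0
  | k + 1 => 2 * (n * (s * n) ^ k) + s * (n * (Q * beta n Q s k))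

noncomputable def alpha (n Q s w : ℕ) : ℕ → ℝ
  | 0 => 1
  | k + 1 => (4 / w) * alpha n Q s w k +
      16 * (n : ℝ) ^ 2 * (Q : ℝ) ^ (2 * w) * (2 / s + (beta n Q s k : ℝ) / ((s * n : ℕ) ^ k : ℕ))

theorem alpha_nonneg (n Q s w k : ℕ) : 0 ≤ alpha n Q s w k := by
  induction k with
  | zero => simp [alpha]
  | succ k ih => rw [alpha]; positivity

theorem beta_le (n Q s : ℕ) (hQ : 2 ≤ Q) (k : ℕ) : s * beta n Q s k ≤ (2 * Q) ^ k * (s * n) ^ k := by
  induction k with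
  | zero => simp [beta]
  | succ k ih =>
    rw [beta]
    have h1 : s * (s * (n * (Q * beta n Q s k))) = (s * n * Q) * (s * beta n Q s k) := by ring
    have h2 : (s * n * Q) * (s * beta n Q s k) ≤ (s * n * Q) * ((2 * Q) ^ k * (s * n) ^ k) :=
      Nat.mul_le_mul_left _ ih
    have h3 : s * (2 * (n * (s * n) ^ k)) = 2 * (s * n) ^ (k + 1) := by rw [pow_succ]; ring
    have h4 : (s * n * Q) * ((2 * Q) ^ k * (s * n) ^ k) = Q * (2 * Q) ^ k * (s * n) ^ (k + 1) := by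
      rw [pow_succ (s * n)]; ring
    have h5 : 2 + Q * (2 * Q) ^ k ≤ (2 * Q) ^ (k + 1) := by
      rw [pow_succ]
      have h6 : 1 ≤ (2 * Q) ^ k := Nat.one_le_pow _ _ (by omega)
      nlinarith
    calc s * (2 * (n * (s * n) ^ k) + s * (n * (Q * beta n Q s k)))
        = s * (2 * (n * (s * n) ^ k)) + s * (s * (n * (Q * beta n Q s k))) := by ring
      _ ≤ 2 * (s * n) ^ (k + 1) + Q * (2 * Q) ^ k * (s * n) ^ (k + 1) := by
          rw [h3, h1, ← h4]; exact Nat.add_le_add_left h2 _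
      _ = (2 + Q * (2 * Q) ^ k) * (s * n) ^ (k + 1) := by ring
      _ ≤ (2 * Q) ^ (k + 1) * (s * n) ^ (k + 1) := Nat.mul_le_mul_right _ h5

theorem lev_per (m : Fin (n + 1) → ℕ) (hm : ∀ a, 2 ≤ m a) {Q s : ℕ} (hmQ : ∀ a, m a ≤ Q)
    (u : Fin (n + 1) → Fin n → ℕ)
    (hu : ∀ a i, m a * u a i ≡ 1 [MOD m (a.succAbove i)])
    (hu' : ∀ a i, u a i < m (a.succAbove i)) (hs : 0 < s) (k : ℕ) :
    (lev m hm Q s u k).Per m (beta n Q s k) := by
  induction k with
  | zero => exact base_per m hm Q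
  | succ k ih =>
    have := per_step (lev m hm Q s u k) m hm hmQ u hu hu' hs ih
    rw [lev_len] at this
    exact this

theorem lev_upp (m : Fin (n + 1) → ℕ) (hm : ∀ a, 2 ≤ m a) {Q s : ℕ} (hmQ : ∀ a, m a ≤ Q)
    (hcop : Pairwise fun a b => Nat.Coprime (m a) (m b))
    (u : Fin (n + 1) → Fin n → ℕ)
    (hu : ∀ a i, m a * u a i ≡ 1 [MOD m (a.succAbove i)])
    (hu' : ∀ a i, u a i < m (a.succAbove i)) (hs : 0 < s) {w : ℕ} (hw : 2 ≤ w) (k : ℕ) :
    (lev m hm Q s u k).Upp Q (alpha n Q s w k) := by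
  have hn : 0 < n := Nat.pos_of_ne_zero (NeZero.ne n)
  induction k with
  | zero => exact base_upp m hm Q
  | succ k ih =>
    have hlen : 0 < (lev m hm Q s u k).len := by rw [lev_len]; positivity
    have := upp_step (lev m hm Q s u k) hlen m hm hmQ hcop u
      (fun a i => (hu' a i).le.trans (hmQ _)) hs (lev_per m hm hmQ u hu hu' hs k)
      (alpha_nonneg n Q s w k) ih hw
    rw [lev_len] at this
    rw [alpha]
    exact this

theorem lev_low (m : Fin (n + 1) → ℕ) (hm : ∀ a, 2 ≤ m a) {Q s : ℕ} (hmQ : ∀ a, m a ≤ Q)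
    (hcop : Pairwise fun a b => Nat.Coprime (m a) (m b))
    (u : Fin (n + 1) → Fin n → ℕ)
    (hu : ∀ a i, m a * u a i ≡ 1 [MOD m (a.succAbove i)])
    (hu' : ∀ a i, u a i < m (a.succAbove i)) (hs : 0 < s) {κ K : ℕ}
    (hκ : 2 * (s * (Q + 1) ^ K) < 2 ^ κ) (hn : 4 * κ ≤ n) (hn2 : 2 ≤ n) (k : ℕ) (hk : k ≤ K) :
    (lev m hm Q s u k).Low m (1 / 10 ^ k) (s * (Q + 1) ^ (K - k)) := by
  induction k with
  | zero =>
    have := base_low m hm hmQ (s * (Q + 1) ^ (K - 0))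
    have e : (1 : ℝ) / 10 ^ 0 = 1 := by norm_num
    rw [e]
    exact this
  | succ k ih =>
    have h1 := ih (by omega)
    have hT : Q * (s * (Q + 1) ^ (K - (k + 1))) + s ≤ s * (Q + 1) ^ (K - k) := by
      have e : K - k = (K - (k + 1)) + 1 := by omega
      rw [e, pow_succ]
      have : 1 ≤ (Q + 1) ^ (K - (k + 1)) := Nat.one_le_pow _ _ (by omega)
      nlinarith
    have hκ' : s * (Q + 1) ^ (K - (k + 1)) + Q * s < 2 ^ κ := by
      refine lt_of_le_of_lt ?_ hκ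
      have h2 : (Q + 1) ^ (K - (k + 1)) ≤ (Q + 1) ^ K := Nat.pow_le_pow_right (by omega) (by omega)
      have h3 : Q ≤ (Q + 1) ^ K := by
        calc Q ≤ (Q + 1) ^ 1 := by rw [pow_one]; omega
          _ ≤ (Q + 1) ^ K := Nat.pow_le_pow_right (by omega) (by omega)
      nlinarith
    have hc0 : (0 : ℝ) < 1 / 10 ^ k := by positivity
    have hc1 : (1 : ℝ) / 10 ^ k ≤ 1 := by
      rw [div_le_one (by positivity)]
      exact one_le_pow₀ (by norm_num)
    have := low_step (lev m hm Q s u k) m hm hmQ hcop u hu hu' hc0 hc1 hs hT hκ' hn hn2 h1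
    have e : (1 : ℝ) / 10 ^ (k + 1) = 1 / 10 ^ k / 10 := by rw [pow_succ]; field_simp
    rw [e]
    exact this

theorem main_large {K : ℕ} (hK8 : 8 ≤ K)
    (hnum1 : 2 * (K ^ (30 * K) * (K ^ 5 + 1) ^ K) < 2 ^ (K ^ 2 / 4))
    (hnum2 : (K ^ 2) ^ K * (K ^ 5 + 1) ≤ 2 ^ (K ^ 2))
    (m : Fin (K ^ 2 + 1) → ℕ) (hm2 : ∀ a, 2 ≤ m a) (hmQ : ∀ a, m a ≤ K ^ 5)
    (hcop : Pairwise fun a b => Nat.Coprime (m a) (m b))
    (f : List Bool → lp (fun _ : ℕ => ℝ) 1) (s₀ D : ℝ) (hs : 0 < s₀)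
    (hf : ∀ x y : List Bool, x.length = (2 * K ^ 2 + 3) * (K ^ (30 * K) * K ^ 2) ^ K →
      y.length = (2 * K ^ 2 + 3) * (K ^ (30 * K) * K ^ 2) ^ K →
      x ≠ y → s₀ * (editDist x y : ℝ) ≤ ‖f x - f y‖ ∧
        ‖f x - f y‖ ≤ D * s₀ * (editDist x y : ℝ)) :
    1 ≤ D * (10 ^ K * (((2 * (K : ℝ) ^ 2 + 3) * (2 * (2 * (K : ℝ) ^ 2 + 3) + 1)) *
        (2 * (4 / (K : ℝ)) ^ K))) := by
  have hKpos : 0 < K := by omega
  have : NeZero (K ^ 2) := ⟨by positivity⟩
  obtain ⟨u, hu, hu'⟩ := exists_inverses m hm2 hcop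
  have hspos : 0 < K ^ (30 * K) := by positivity
  have hQ2 : 2 ≤ K ^ 5 := by
    calc 2 ≤ K := by omega
      _ = K ^ 1 := (pow_one K).symm
      _ ≤ K ^ 5 := Nat.pow_le_pow_right hKpos (by norm_num)
  have hn2 : 2 ≤ K ^ 2 := by
    calc 2 ≤ K := by omega
      _ = K ^ 1 := (pow_one K).symm
      _ ≤ K ^ 2 := Nat.pow_le_pow_right hKpos (by norm_num)
  have hlow := lev_low m hm2 hmQ hcop u hu hu' hspos hnum1 (Nat.mul_div_le _ _) hn2 K le_rfl
  have hupp := lev_upp m hm2 hmQ hcop u hu hu' hspos (w := K) (by omega) K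
  have hlen : 0 < (lev m hm2 (K ^ 5) (K ^ (30 * K)) u K).len := by
    rw [lev_len]; positivity
  have hT : 1 ≤ K ^ (30 * K) * (K ^ 5 + 1) ^ (K - K) := by
    rw [Nat.sub_self, pow_zero, mul_one]; exact hspos
  have hcard : Nat.card (lev m hm2 (K ^ 5) (K ^ (30 * K)) u K).S ≤ 2 ^ (K ^ 2) := by
    rw [lev_card]; exact hnum2
  have hc : (0 : ℝ) < 1 / 10 ^ K := by positivity
  have hfin := level_bound (lev m hm2 (K ^ 5) (K ^ (30 * K)) u K) m hm2 (Q := K ^ 5) (by omega)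
    hlen hc hT hlow hupp hcard f s₀ D hs (by rw [lev_len]; exact hf)
  have hα : alpha (K ^ 2) (K ^ 5) (K ^ (30 * K)) K K ≤ 2 * (4 / (K : ℝ)) ^ K := by
    apply num_alpha hK8 (fun k => alpha (K ^ 2) (K ^ 5) (K ^ (30 * K)) K k) rfl
    intro k hk
    show alpha (K ^ 2) (K ^ 5) (K ^ (30 * K)) K (k + 1) ≤ _
    rw [alpha]
    have hb := beta_le (K ^ 2) (K ^ 5) (K ^ (30 * K)) hQ2 k
    set s : ℕ := K ^ (30 * K) with hs'
    have hlk : 0 < (s * K ^ 2) ^ k := by positivity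
    have hb2 : ((beta (K ^ 2) (K ^ 5) s k : ℕ) : ℝ) / (((s * K ^ 2 : ℕ) ^ k : ℕ) : ℝ) ≤
        (2 * (K : ℝ) ^ 5) ^ K / (s : ℝ) := by
      rw [div_le_div_iff₀ (by exact_mod_cast hlk) (by exact_mod_cast hspos)]
      have h1 : ((s * beta (K ^ 2) (K ^ 5) s k : ℕ) : ℝ) ≤
          (((2 * K ^ 5) ^ k * (s * K ^ 2) ^ k : ℕ) : ℝ) := by exact_mod_cast hb
      have h2 : (((2 * K ^ 5) ^ k * (s * K ^ 2) ^ k : ℕ) : ℝ) ≤
          (2 * (K : ℝ) ^ 5) ^ K * (((s * K ^ 2 : ℕ) ^ k : ℕ) : ℝ) := by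
        rw [Nat.cast_mul]
        apply mul_le_mul_of_nonneg_right _ (Nat.cast_nonneg _)
        push_cast
        have hb1 : (1 : ℝ) ≤ 2 * (K : ℝ) ^ 5 := by
          have : (1 : ℝ) ≤ (K : ℝ) ^ 5 := one_le_pow₀ (by exact_mod_cast hKpos)
          linarith
        exact pow_le_pow_right₀ hb1 hk.le
      calc ((beta (K ^ 2) (K ^ 5) s k : ℕ) : ℝ) * (s : ℝ) = ((s * beta (K ^ 2) (K ^ 5) s k : ℕ) : ℝ) := by
            push_cast; ring
        _ ≤ _ := h1.trans h2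
    have hs2 : (s : ℝ) = (K : ℝ) ^ (30 * K) := by rw [hs']; push_cast; rfl
    have h3 : (2 : ℝ) / s + ((beta (K ^ 2) (K ^ 5) s k : ℕ) : ℝ) / (((s * K ^ 2 : ℕ) ^ k : ℕ) : ℝ) ≤
        (2 + (2 * (K : ℝ) ^ 5) ^ K) / (K : ℝ) ^ (30 * K) := by
      rw [← hs2, add_div]
      exact add_le_add_right hb2 _
    have h4 : 16 * ((K ^ 2 : ℕ) : ℝ) ^ 2 * ((K ^ 5 : ℕ) : ℝ) ^ (2 * K) *
        (2 / s + ((beta (K ^ 2) (K ^ 5) s k : ℕ) : ℝ) / (((s * K ^ 2 : ℕ) ^ k : ℕ) : ℝ)) ≤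
        16 * ((K : ℝ) ^ 2) ^ 2 * ((K : ℝ) ^ 5) ^ (2 * K) *
        ((2 + (2 * (K : ℝ) ^ 5) ^ K) / (K : ℝ) ^ (30 * K)) := by
      have h5 : 16 * ((K ^ 2 : ℕ) : ℝ) ^ 2 * ((K ^ 5 : ℕ) : ℝ) ^ (2 * K) =
        16 * ((K : ℝ) ^ 2) ^ 2 * ((K : ℝ) ^ 5) ^ (2 * K) := by push_cast; rfl
      rw [h5]
      apply mul_le_mul_of_nonneg_left h3
      positivity
    exact add_le_add_right h4 _
  have hDnn : 0 ≤ D := by
    by_contra hneg
    have hneg' : D < 0 := not_le.1 hneg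
    have h1 : D * (((2 * (K ^ 2 : ℕ) + 3 : ℝ) * (2 * (2 * (K ^ 2 : ℕ) + 3) + 1)) *
        alpha (K ^ 2) (K ^ 5) (K ^ (30 * K)) K K) ≤ 0 := by
      apply mul_nonpos_of_nonpos_of_nonneg hneg'.le
      have := alpha_nonneg (K ^ 2) (K ^ 5) (K ^ (30 * K)) K K
      positivity
    linarith
  have h10 : (0 : ℝ) < 10 ^ K := by positivity
  have h6 : (1 : ℝ) / 10 ^ K ≤ D * (((2 * (K : ℝ) ^ 2 + 3) * (2 * (2 * (K : ℝ) ^ 2 + 3) + 1)) *
        (2 * (4 / (K : ℝ)) ^ K)) := by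
    refine hfin.trans ?_
    push_cast
    apply mul_le_mul_of_nonneg_left _ hDnn
    apply mul_le_mul_of_nonneg_left hα
    positivity
  rw [div_le_iff₀ h10] at h6
  calc (1 : ℝ) ≤ _ := h6
    _ = _ := by ring

end Crest.Agent.ED
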