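import Mathlib
import Crest.Agent.ED.Edit
import Crest.Agent.ED.Defs
import Crest.Agent.ED.Low

/-! Row 210 (S0323), chunk L2: the lower bound step. -/
set_option autoImplicit false

open Crest.GeometryTopology.EditDistance

namespace Crest.Agent.ED

section lists
variable {α : Type}

theorem ls_split (f : ℕ → List α) (N b : ℕ) (hb : b < N) :
    ∃ R, (List.range N).flatMap f = (List.range b).flatMap f ++ (f b ++ R) := by
  induction N with
  | zero => omega
  | succ N ih =>
    rw [List.range_succ, List.flatMap_append]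
    simp only [List.flatMap_cons, List.flatMap_nil, List.append_nil]
    rcases Nat.lt_succ_iff_lt_or_eq.mp hb with h | h
    · obtain ⟨R, hR⟩ := ih h
      exact ⟨R ++ f N, by rw [hR]; simp [List.append_assoc]⟩
    · subst h
      exact ⟨[], by simp⟩

theorem ls_len (f : ℕ → List α) (ℓ : ℕ) (hf : ∀ b, (f b).length = ℓ) (b : ℕ) :
    ((List.range b).flatMap f).length = b * ℓ := by
  rw [List.length_flatMap]
  simp [hf]

theorem ls_block (f : ℕ → List α) (ℓ : ℕ) (hf : ∀ b, (f b).length = ℓ) (N b : ℕ) (hb : b < N) :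
    (((List.range N).flatMap f).drop (b * ℓ)).take ℓ = f b := by
  obtain ⟨R, hR⟩ := ls_split f N b hb
  rw [hR, List.drop_append, ls_len f ℓ hf b]
  simp only [Nat.sub_self, List.drop_zero]
  rw [List.drop_eq_nil_of_le (by rw [ls_len f ℓ hf b]), List.nil_append, List.take_append, hf b]
  simp only [Nat.sub_self, List.take_zero, List.append_nil]
  rw [List.take_of_length_le (by rw [hf b])]

theorem ls_window (f : ℕ → List α) (N b : ℕ) (hb : b < N) :
    (((List.range N).flatMap f).drop ((List.range b).flatMap f).length).take (f b).length = f b := by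
  obtain ⟨R, hR⟩ := ls_split f N b hb
  rw [hR]
  generalize (List.range b).flatMap f = A
  rw [List.drop_append]
  simp

theorem ls_mem (f : ℕ → List α) (ℓ : ℕ) (hf : ∀ b, (f b).length = ℓ) (N p : ℕ)
    (hp : p < ((List.range N).flatMap f).length) :
    ((List.range N).flatMap f)[p] ∈ f (p / ℓ) := by
  have hlen := ls_len f ℓ hf N
  have hℓ : 0 < ℓ := by
    rcases Nat.eq_zero_or_pos ℓ with h | h
    · rw [hlen, h] at hp; omega
    · exact h
  have hb : p / ℓ < N := by
    rw [hlen] at hp
    exact Nat.div_lt_of_lt_mul (by rwa [mul_comm])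
  have h := ls_block f ℓ hf N (p / ℓ) hb
  have hmod : p / ℓ * ℓ + p % ℓ = p := Nat.div_add_mod' p ℓ
  have hml : p % ℓ < ℓ := Nat.mod_lt _ hℓ
  rw [← h]
  rw [List.mem_iff_getElem]
  refine ⟨p % ℓ, ?_, ?_⟩
  · rw [h, hf]; exact hml
  · simp only [List.getElem_take, List.getElem_drop]
    congr 1

theorem ls_pos_mono (f : ℕ → List α) {b b' : ℕ} (h : b < b') :
    ((List.range b).flatMap f).length + (f b).length ≤ ((List.range b').flatMap f).length := by
  obtain ⟨R, hR⟩ := ls_split f b' b h
  rw [hR]
  simp only [List.length_append]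
  omega

end lists

/-- the arithmetic: a chain of pairs -/
theorem ls_card {n s κ : ℕ} (_hn : 0 < n) (C : Finset ℕ) (g : ℕ → ℕ)
    (hC : ∀ b ∈ C, b < s * n) (hg : ∀ b ∈ C, g b < s * n)
    (hmono : ∀ b ∈ C, ∀ b' ∈ C, b < b' → g b ≤ g b')
    (hfib : ∀ j j' : ℕ, (C.filter fun b => b / n = j ∧ g b / n = j').card ≤ κ) :
    C.card ≤ 2 * s * κ := by
  classical
  have hmaps : ∀ b ∈ C, b / n + g b / n ∈ Finset.range (2 * s) := by
    intro b hb
    have h1 : b / n < s := Nat.div_lt_of_lt_mul (by rw [mul_comm]; exact hC b hb)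
    have h2 : g b / n < s := Nat.div_lt_of_lt_mul (by rw [mul_comm]; exact hg b hb)
    rw [Finset.mem_range]
    omega
  have := Finset.card_le_mul_card_image_of_maps_to hmaps κ (by
    intro k _
    by_cases hne : (C.filter fun b => b / n + g b / n = k).Nonempty
    · obtain ⟨b₀, hb₀⟩ := hne
      rw [Finset.mem_filter] at hb₀
      refine (Finset.card_le_card ?_).trans (hfib (b₀ / n) (g b₀ / n))
      intro b hb
      rw [Finset.mem_filter] at hb ⊢
      refine ⟨hb.1, ?_⟩
      rcases lt_trichotomy b b₀ with h | h | h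
      · have h1 : b / n ≤ b₀ / n := Nat.div_le_div_right h.le
        have h2 : g b / n ≤ g b₀ / n := Nat.div_le_div_right (hmono b hb.1 b₀ hb₀.1 h)
        omega
      · subst h; exact ⟨rfl, rfl⟩
      · have h1 : b₀ / n ≤ b / n := Nat.div_le_div_right h.le
        have h2 : g b₀ / n ≤ g b / n := Nat.div_le_div_right (hmono b₀ hb₀.1 b hb.1 h)
        omega
    · rw [Finset.not_nonempty_iff_eq_empty] at hne
      rw [hne]; simp)
  rw [Finset.card_range] at this
  calc C.card ≤ κ * (2 * s) := this
    _ = 2 * s * κ := by ring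

/-- the words of the blocks, without labels -/
theorem ls_snd {n : ℕ} [NeZero n] (A : Sys n) (a : Fin (n + 1)) (y : Fin n → A.G) (b : ℕ) :
    (A.blk a y b).map Prod.snd = A.enc (a.succAbove (Fin.ofNat n b))
      (y (Fin.ofNat n b) + (b / n) • A.rho (a.succAbove (Fin.ofNat n b))) := by
  rw [Sys.blk, List.map_map]
  have : (Prod.snd ∘ Prod.mk (Fin.ofNat n b) : A.S → A.S) = id := rfl
  rw [this, List.map_id]

theorem ls_lab {n : ℕ} [NeZero n] (A : Sys n) (a : Fin (n + 1)) (y : Fin n → A.G) (b : ℕ)
    (c : Fin n × A.S) (hc : c ∈ A.blk a y b) : c.1.val = b % n := by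
  rw [Sys.blk, List.mem_map] at hc
  obtain ⟨c', -, rfl⟩ := hc
  rfl

/-- The lower bound step. -/
theorem low_step' {n : ℕ} [NeZero n] (A : Sys n) (m : Fin (n + 1) → ℕ) (hm2 : ∀ a, 2 ≤ m a)
    {Q : ℕ} (hmQ : ∀ a, m a ≤ Q) (hcop : Pairwise fun a b => Nat.Coprime (m a) (m b))
    (u : Fin (n + 1) → Fin n → ℕ)
    (hu : ∀ a i, m a * u a i ≡ 1 [MOD m (a.succAbove i)])
    (hu' : ∀ a i, u a i < m (a.succAbove i)) {c : ℝ} (hc0 : 0 < c) (hc1 : c ≤ 1)
    {s T T' κ : ℕ} (hs : 0 < s) (hT : Q * T' + s ≤ T) (hκ : T' + Q * s < 2 ^ κ)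
    (hn : 4 * κ ≤ n) (hn2 : 2 ≤ n) (hlow : A.Low m c T) :
    (A.next s u).Low m (c / 10) T' := by
  classical
  suffices H : ∀ (a : Fin (n + 1)) (y : Fin n → A.G) (t : ℤ), ¬ ((m a : ℤ) ∣ t) → |t| ≤ T' →
      c / 10 * ((s * n * A.len : ℕ) : ℝ) ≤
        (editDist ((List.range (s * n)).flatMap (A.blk a y)) ((List.range (s * n)).flatMap
          (A.blk a (y + t • (fun i => u a i • A.rho (a.succAbove i))))) : ℝ) from H
  intro a y t hmt htT
  have hn0 : 0 < n := by omega
  have hN : 0 < s * n := Nat.mul_pos hs hn0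
  set ℓ := A.len with hℓ
  set y' : Fin n → A.G := y + t • (fun i => u a i • A.rho (a.succAbove i)) with hy'
  set X := (List.range (s * n)).flatMap (A.blk a y') with hX
  have hbl : ∀ (z : Fin n → A.G) (b : ℕ), (A.blk a z b).length = ℓ := fun z b => A.blk_len a z b
  have hXlen : X.length = s * n * ℓ := ls_len _ ℓ (hbl y') _
  obtain ⟨pc, hpc, hsum⟩ := ed_split_flatMap (s * n) hN (A.blk a y) X
  -- cheap blocks
  set C := (Finset.range (s * n)).filter
    fun b => 5 * (editDist (A.blk a y b) (pc b) : ℝ) < c * ℓ with hC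
  have hcheap : ∀ b ∈ C, ∃ b' < s * n, b' % n = b % n ∧
      (∃ p₀, p₀ / ℓ = b' ∧ ((List.range b).flatMap pc).length ≤ p₀ ∧
          p₀ < ((List.range b).flatMap pc).length + (pc b).length) ∧
      (editDist (A.blk a y b) (A.blk a y' b') : ℝ) < c * ℓ := by
    intro b hb
    rw [hC, Finset.mem_filter, Finset.mem_range] at hb
    obtain ⟨hbN, hch⟩ := hb
    have hcl : c * (ℓ : ℝ) ≤ ℓ := mul_le_of_le_one_left (Nat.cast_nonneg _) hc1
    have he : 5 * editDist (A.blk a y b) (pc b) < ℓ := by
      have : ((5 * editDist (A.blk a y b) (pc b) : ℕ) : ℝ) < ℓ := by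
        push_cast
        exact lt_of_lt_of_le hch hcl
      exact_mod_cast this
    have hw : (X.drop ((List.range b).flatMap pc).length).take (pc b).length = pc b := by
      rw [hpc]
      exact ls_window pc (s * n) b hbN
    obtain ⟨b', hb'N, hb'mod, hp₀, hed⟩ := locate (fun c : Fin n × A.S => c.1.val) hn2 X hXlen
      (fun p hp => ls_lab A a y' (p / ℓ) _ (ls_mem _ ℓ (hbl y') _ p hp))
      (A.blk a y b) (pc b) (b % n) (hbl y b) (fun c hc => ls_lab A a y b c hc)
      ((List.range b).flatMap pc).length hw he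
    refine ⟨b', hb'N, hb'mod, hp₀, ?_⟩
    rw [ls_block (A.blk a y') ℓ (hbl y') (s * n) b' hb'N] at hed
    refine lt_of_le_of_lt ?_ hch
    exact_mod_cast hed
  choose! g hgN hgmod hgwin hged using hcheap
  have hCN : ∀ b ∈ C, b < s * n := by
    intro b hb
    rw [hC, Finset.mem_filter, Finset.mem_range] at hb
    exact hb.1
  have hmono : ∀ b ∈ C, ∀ b' ∈ C, b < b' → g b ≤ g b' := by
    intro b hb b' hb' hlt
    obtain ⟨p, hp, hp1, hp2⟩ := hgwin b hb
    obtain ⟨p', hp', hp1', hp2'⟩ := hgwin b' hb'
    rw [← hp, ← hp']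
    apply Nat.div_le_div_right
    have := ls_pos_mono pc hlt
    omega
  have hfib : ∀ j j' : ℕ, (C.filter fun b => b / n = j ∧ g b / n = j').card ≤ κ := by
    intro j j'
    by_cases hne : (C.filter fun b => b / n = j ∧ g b / n = j').Nonempty
    · obtain ⟨b₀, hb₀⟩ := hne
      rw [Finset.mem_filter] at hb₀
      have hj : j < s := by
        rw [← hb₀.2.1]
        exact Nat.div_lt_of_lt_mul (by rw [mul_comm]; exact hCN b₀ hb₀.1)
      have hj' : j' < s := by
        rw [← hb₀.2.2]
        exact Nat.div_lt_of_lt_mul (by rw [mul_comm]; exact hgN b₀ hb₀.1)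
      set Y : ℤ := t + m a * ((j' : ℤ) - j) with hY
      have hY0 : Y ≠ 0 := by
        intro h0
        apply hmt
        refine ⟨-((j' : ℤ) - j), ?_⟩
        rw [hY] at h0
        linarith
      have hjj : |(j' : ℤ) - j| ≤ s := by
        rw [abs_le]
        constructor <;> omega
      have hma : ((m a : ℕ) : ℤ) ≤ Q := by exact_mod_cast hmQ a
      have hYlt : |Y| < 2 ^ κ := by
        calc |Y| ≤ |t| + |(m a : ℤ) * ((j' : ℤ) - j)| := abs_add_le _ _
          _ = |t| + m a * |(j' : ℤ) - j| := by rw [abs_mul, Nat.abs_cast]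
          _ ≤ T' + Q * s := by
              apply add_le_add htT
              exact mul_le_mul hma hjj (abs_nonneg _) (by positivity)
          _ < 2 ^ κ := by exact_mod_cast hκ
      refine le_trans ?_ (card_dvd_le (fun i => m (a.succAbove i)) (fun i => hm2 _)
        (fun i i' hii => hcop (fun h => hii (Fin.succAbove_right_injective h))) Y hY0 hYlt)
      refine Finset.card_le_card_of_injOn (fun b => Fin.ofNat n b) ?_ ?_
      · intro b hb
        rw [Finset.mem_coe, Finset.mem_filter] at hb
        obtain ⟨hbC, hbj, hbj'⟩ := hb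
        rw [Finset.mem_coe, Finset.mem_filter]
        refine ⟨Finset.mem_univ _, ?_⟩
        have hgb : Fin.ofNat n (g b) = Fin.ofNat n b := by
          apply Fin.ext
          simp only [Fin.ofNat]
          exact hgmod b hbC
        have hed := hged b hbC
        have hed2 : (editDist ((A.blk a y b).map Prod.snd) ((A.blk a y' (g b)).map Prod.snd) : ℝ)
            < c * ℓ := by
          refine lt_of_le_of_lt ?_ hed
          exact_mod_cast ed_map Prod.snd _ _
        rw [ls_snd, ls_snd, hgb, hbj, hbj'] at hed2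
        set i := Fin.ofNat n b with hi
        set ρ := A.rho (a.succAbove i) with hρ
        have hy'i : y' i = y i + t • (u a i • ρ) := rfl
        have hkey : y' i + j' • ρ = (y i + j • ρ) + (t * u a i + ((j' : ℤ) - j)) • ρ := by
          rw [hy'i, add_smul, sub_smul, mul_smul]
          simp only [natCast_zsmul]
          abel
        rw [hkey] at hed2
        have hdvd : (m (a.succAbove i) : ℤ) ∣ t * u a i + ((j' : ℤ) - j) := by
          by_contra hnd
          have hu1 : ((u a i : ℕ) : ℤ) ≤ Q := by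
            have h1 := hu' a i
            have h2 := hmQ (a.succAbove i)
            exact_mod_cast (h1.le.trans h2)
          have hle : |t * u a i + ((j' : ℤ) - j)| ≤ T := by
            calc |t * u a i + ((j' : ℤ) - j)| ≤ |t * u a i| + |(j' : ℤ) - j| := abs_add_le _ _
              _ = |t| * u a i + |(j' : ℤ) - j| := by rw [abs_mul, Nat.abs_cast]
              _ ≤ T' * Q + s := by
                  apply add_le_add _ hjj
                  exact mul_le_mul htT hu1 (by positivity) (by positivity)
              _ ≤ T := by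
                  have := hT
                  rw [mul_comm] at this
                  exact_mod_cast this
          have := hlow (a.succAbove i) (y i + j • ρ) _ hnd hle
          linarith
        have hu1 : (m (a.succAbove i) : ℤ) ∣ (m a : ℤ) * u a i - 1 := by
          have := (Nat.modEq_iff_dvd.mp (hu a i).symm)
          push_cast at this
          exact this
        have : Y = m a * (t * u a i + ((j' : ℤ) - j)) - t * ((m a : ℤ) * u a i - 1) := by
          rw [hY]; ring
        rw [this]
        exact dvd_sub (Dvd.dvd.mul_left hdvd _) (Dvd.dvd.mul_left hu1 _)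
      · intro b hb b' hb' hbb
        rw [Finset.mem_coe, Finset.mem_filter] at hb hb'
        have h1 : b % n = b' % n := by
          have := congrArg Fin.val hbb
          simpa [Fin.ofNat] using this
        have h2 : b / n = b' / n := by rw [hb.2.1, hb'.2.1]
        rw [← Nat.div_add_mod b n, ← Nat.div_add_mod b' n, h1, h2]
    · rw [Finset.not_nonempty_iff_eq_empty] at hne
      rw [hne]; simp
  have hcard : C.card ≤ 2 * s * κ := ls_card hn0 C g hCN hgN hmono hfib
  -- conclusion
  have hcard2 : (C.card : ℝ) ≤ (s * n : ℕ) / 2 := by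
    have h1 : 2 * C.card ≤ s * n := by
      calc 2 * C.card ≤ 2 * (2 * s * κ) := by omega
        _ = s * (4 * κ) := by ring
        _ ≤ s * n := Nat.mul_le_mul_left _ hn
    have h2 : (2 : ℝ) * C.card ≤ (s * n : ℕ) := by exact_mod_cast h1
    linarith
  have hCsub : C ⊆ Finset.range (s * n) := Finset.filter_subset _ _
  have hge : ∀ b ∈ Finset.range (s * n) \ C, c * ℓ / 5 ≤ (editDist (A.blk a y b) (pc b) : ℝ) := by
    intro b hb
    rw [Finset.mem_sdiff] at hb
    by_contra hlt
    push Not at hlt
    apply hb.2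
    rw [hC, Finset.mem_filter]
    refine ⟨hb.1, ?_⟩
    linarith
  have hsumR : ((∑ b ∈ Finset.range (s * n), editDist (A.blk a y b) (pc b) : ℕ) : ℝ) ≤
      editDist ((List.range (s * n)).flatMap (A.blk a y)) X := by exact_mod_cast hsum
  refine le_trans ?_ hsumR
  push_cast
  have hcl : 0 ≤ c * (ℓ : ℝ) / 5 := by positivity
  calc c / 10 * ((s : ℝ) * n * ℓ) = (((s * n : ℕ) : ℝ) / 2) * (c * ℓ / 5) := by push_cast; ring
    _ ≤ ((Finset.range (s * n) \ C).card : ℝ) * (c * ℓ / 5) := by
        apply mul_le_mul_of_nonneg_right _ hcl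
        have h1 : (Finset.range (s * n) \ C).card + C.card = s * n := by
          rw [Finset.card_sdiff_add_card_eq_card hCsub, Finset.card_range]
        have h2 : ((Finset.range (s * n) \ C).card : ℝ) + C.card = (s * n : ℕ) := by
          exact_mod_cast h1
        linarith
    _ = ∑ _b ∈ Finset.range (s * n) \ C, c * (ℓ : ℝ) / 5 := by
        rw [Finset.sum_const, nsmul_eq_mul]
    _ ≤ ∑ b ∈ Finset.range (s * n) \ C, (editDist (A.blk a y b) (pc b) : ℝ) :=
        Finset.sum_le_sum hge
    _ ≤ ∑ b ∈ Finset.range (s * n), (editDist (A.blk a y b) (pc b) : ℝ) :=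
        Finset.sum_le_sum_of_subset_of_nonneg Finset.sdiff_subset
          (fun _ _ _ => Nat.cast_nonneg _)

end Crest.Agent.ED
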